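import Vale.Agent.P088.R2.H354.S11
import Vale.Agent.P088.R2.H354.Spec3n
import Vale.Agent.P088.R2.H673.S3.QI
import Vale.Agent.P088.R2.H238.S3.Tfrm

/-!
# P088, stage 3: the closing argument, statements

`RowSOLW` is the only hypothesis about the two-slot weight (it follows from EST' and SOL3).
Parameters: `R` (rate of the stiffness) tends to infinity, `ν` is the slope of `W`, `N = ν + D` the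
slope of the selection, `kap` the stiffness at the selected point, `Gs` its level.
-/

open MeasureTheory Set
open scoped ContDiff Matrix

noncomputable section

namespace Vale.Agent.P088.HY.T4

open Vale.Agent.P088.LR Vale.Agent.P088.HY.T3

/-- The level function in the inverted chart, `y·e₀ - 1 + σ |y - e₀|² / 2`. -/
def gy (n : ℕ) (σ : ℝ) (y : V n) : ℝ := (∑ i, y i * e0 n i) - 1 + σ / 2 * sq (y - e0 n)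

/-- The level function in the chart. -/
def gx (n : ℕ) (σ : ℝ) (x : V n) : ℝ := gy n σ (iv x)

/-- The stiffness `k(x)`. -/
def kk (n : ℕ) (σ R kap Gs : ℝ) (x : V n) : ℝ := kap * Real.exp (R * (gx n σ x - Gs))

/-- The domain of the kernels. -/
def Oc (n : ℕ) : Set (V n) := Ao n (4 / 5) 24

/-- The zone which contains the support of the quasimode. -/
def Zq (n : ℕ) : Set (V n) := Ac n (9 / 10) 15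

/-- The correction of a quasimode, with a weighted bound. -/
def SolW {n : ℕ} (s₁ s₂ : MF n) (r : ℝ) (W w : VV n → ℝ) : Prop :=
  ∀ K0 : VV n → ℝ, ContDiff ℝ ∞ K0 → HasCompactSupport K0 →
    (∀ z, K0 z ≠ 0 → z.1 ∈ Zq n ∧ z.2 ∈ Zq n ∧ ‖z.1 - z.2‖ ≤ r) →
  ∃ K1 : VV n → ℝ, ContDiffOn ℝ ∞ K1 (Oc n ×ˢ Oc n) ∧
    (∀ z ∈ Oc n ×ˢ Oc n, Lx s₁ K1 z = -Lx s₁ K0 z) ∧
    (∀ z ∈ Oc n ×ˢ Oc n, Ly s₂ K1 z = -Ly s₂ K0 z) ∧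
    IntegrableOn (fun z => Real.exp (-(2 * W z)) * K1 z ^ 2) (Oc n ×ˢ Oc n) ∧
    ∫ z in Oc n ×ˢ Oc n, Real.exp (-(2 * W z)) * K1 z ^ 2 ≤
      ∫ z, Real.exp (-(2 * W z)) * (Lx s₁ K0 z ^ 2 + Ly s₂ K0 z ^ 2) / w z

/-- What the closing argument uses of the two-slot weight `W` (normalised to be bounded at the
selected point) and of the weight `w` in the estimate. -/
structure WB {n : ℕ} (s₁ s₂ : MF n) (σ a b c C ν R kap Gs : ℝ) (W w : VV n → ℝ) : Prop where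
  Wc : ContinuousOn W (Oc n ×ˢ Oc n)
  wc : ContinuousOn w (Oc n ×ˢ Oc n)
  w0 : ∀ z ∈ Oc n ×ˢ Oc n, 0 < w z
  /-- lower bound near the diagonal -/
  W1 : ∀ x ∈ Zq n, ∀ y ∈ Zq n, ‖x - y‖ ≤ 1 / R ^ 2 →
    ν * R * (gx n σ x - Gs) + c * kk n σ R kap Gs x ^ 2 * ‖x - y‖ ^ 2 - C ≤ W (x, y)
  /-- upper bound very near the diagonal (below the level `kk = 1` only monotonicity; the slope of
  the weight is smaller than `ν` near `kk = 1`, this costs `log R`) -/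
  W2 : ∀ p ∈ Ac n (99 / 100) 15, ∀ z ∈ Metric.ball (p, p) (2 / (R ^ C + kk n σ R kap Gs p)),
    W z ≤ ν * max (R * (gx n σ p - Gs)) (-Real.log kap) + C * (1 + Real.log R)
  /-- the far values -/
  W3 : ∀ x ∈ Ac n (99 / 100) 21, ∀ y ∈ Ac n (99 / 10) 21, W (x, y) ≤ -(c * R) ∧ W (y, x) ≤ -(c * R)
  /-- the gain where the stiffness is large -/
  w1 : ∀ x ∈ Zq n, ∀ y ∈ Zq n, ‖x - y‖ ≤ 1 / R ^ 2 → kap ^ (1 / 4 : ℝ) ≤ kk n σ R kap Gs x →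
    c * R ^ (-C) * kap ^ a * Real.exp (-(b * R * |gx n σ x - Gs|)) ≤ w (x, y)
  /-- the gain everywhere near the diagonal -/
  w2 : ∀ x ∈ Zq n, ∀ y ∈ Zq n, ‖x - y‖ ≤ 1 / R ^ 2 →
    c * R ^ (-C) * kap ^ (-b) * Real.exp (-(b * R * |gx n σ x - Gs|)) ≤ w (x, y)
  sol : SolW s₁ s₂ (1 / R ^ 2) W w

/-- **SOLW**, the outcome of EST' and SOL3. The exponents `a`, `b` do not depend on the slopes. The
stiffness satisfies `R ^ C ≤ kap ≤ exp (η R)`, the difference of the metrics is smaller than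
`kap⁻¹ kk ^ (-ν / 2)` (with `K` derivatives) where `kk ≥ 1`. -/
def RowSOLW : Prop := ∀ n : ℕ, 3 ≤ n → ∃ σ a b ν₀ : ℝ, 0 < σ ∧ σ ≤ 1 / 10 ∧ 0 < a ∧ 0 ≤ b ∧
  ∀ ν : ℝ, ν₀ ≤ ν → ∃ (K : ℕ) (ε c C η R₀ : ℝ), 0 < ε ∧ 0 < c ∧ 0 ≤ C ∧ 0 < η ∧
  ∀ (s₁ s₂ : MF n) (G : Set (V n)), Nrm K ε s₁ s₂ G → ∀ R kap Gs : ℝ, R₀ ≤ R → 1 ≤ R →
    -η ≤ Gs → Gs ≤ 0 → 1 ≤ kap → R ^ C ≤ kap → kap ≤ Real.exp (η * R) →
    (∀ i j, ∀ l ≤ K, ∀ x ∈ Ac n (4 / 5) 22, 1 ≤ kk n σ R kap Gs x →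
      ‖iteratedFDeriv ℝ l (fun y => s₂ y i j - s₁ y i j) x‖ ≤
        kap⁻¹ * kk n σ R kap Gs x ^ (-(ν / 2))) →
    ∃ W w : VV n → ℝ, WB s₁ s₂ σ a b c C ν R kap Gs W w

/-! ## Selection -/

/-- The outcome of the selection and of the interpolation: `ps` is the selected point, `Gs` its
level, `δ` the size of `s₂ - s₁` there, `kap` a power of `1 / δ`, and the jets of `s₂ - s₁` with the
weight `exp (N R (gx - Gs))` decay away from the level `Gs`. -/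
structure SelD {n : ℕ} (s₁ s₂ : MF n) (σ N q : ℝ) (J : ℕ) (C s R kap Gs δ : ℝ) (ps : V n) :
    Prop where
  pm : ps ∈ Ac n 1 (11 / 10)
  gs : Gs = gx n σ ps
  gs0 : Gs ≤ 0
  δ0 : 0 < δ
  δ1 : δ < 1
  δe : R2.H238.S3.nh (fun x => s₂ x - s₁ x) ps = δ ^ 2
  k1 : 1 ≤ kap
  ke : ∃ m : ℝ, N / 2 ≤ m ∧ m ≤ 2 * N ∧ δ * kap ^ m = 1
  jets : ∀ i j, ∀ l ≤ J, ∀ x ∈ Ac n (4 / 5) 22,
    ‖iteratedFDeriv ℝ l (fun y => s₂ y i j - s₁ y i j) x‖ *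
      Real.exp (N * R * (gx n σ x - Gs)) ≤
      C * R ^ C * kap ^ s * δ * Real.exp (-(q * R * |gx n σ x - Gs|))

/-- **P1.** The phases (`kk = 1`) lie below the level where `|s₂ - s₁| ≤ 1` is good enough. -/
def RowP1 : Prop := ∀ n : ℕ, 3 ≤ n → ∀ σ : ℝ, 0 < σ → σ ≤ 1 / 10 → ∀ q s : ℝ, 0 ≤ q → 0 < s →
  ∃ N₀ : ℝ, ∀ N : ℝ, N₀ ≤ N → ∀ (J : ℕ) (s₁ s₂ : MF n) (G : Set (V n)) (K : ℕ) (ε : ℝ),
  Nrm K ε s₁ s₂ G → (∀ δ : ℝ, 0 < δ → ∃ x ∈ Eb (e0 n) δ, s₂ x ≠ s₁ x) →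
  ∃ C : ℝ, 0 ≤ C ∧ ∀ C₀ R₀ η : ℝ, 0 < η → ∃ (R kap Gs δ : ℝ) (ps : V n), R₀ ≤ R ∧ 1 ≤ R ∧
    R ^ C₀ ≤ kap ∧ kap ≤ Real.exp (η * R) ∧ -η ≤ Gs ∧ δ * kap ^ (N - q / 2) = 1 ∧
    SelD s₁ s₂ σ N q J C s R kap Gs δ ps

/-! ## Weighted solvability in the chart -/

/-- A convex level function `g` in the inverted chart. -/
structure Lvl (n : ℕ) (M σ₀ c₀ : ℝ) (g : V n → ℝ) : Prop where
  sm : ContDiff ℝ ∞ g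
  g1 : ∀ y ∈ Eb (0 : V n) (5 / 4), ∀ i, |pd i g y| ≤ M
  g2 : ∀ y ∈ Eb (0 : V n) (5 / 4), ∀ i j, |pd i (pd j g) y| ≤ M
  g3 : ∀ y ∈ Eb (0 : V n) (5 / 4), ∀ i j k, |pd i (pd j (pd k g)) y| ≤ M
  gr : ∀ y ∈ Eb (0 : V n) (5 / 4), c₀ ≤ ∑ i, pd i g y ^ 2
  gc : ∀ y ∈ Eb (0 : V n) (5 / 4), ∀ ξ : Fin n → ℝ,
    σ₀ * ∑ i, ξ i ^ 2 ≤ ∑ i, ∑ j, ξ i * ξ j * pd i (pd j g) y

/-- **P2.** Solvability with the weight `exp (-2 ρ g(iv x))` on subsets of the annulus (from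
`R2.H404.dirwS` by inversion). -/
def RowP2 : Prop := ∀ n : ℕ, 3 ≤ n → ∀ M σ₀ c₀ : ℝ, 0 < M → 0 < σ₀ → 0 < c₀ →
  ∃ (K : ℕ) (ε C ρ₀ : ℝ), 0 < ε ∧ 1 ≤ C ∧ ∀ s : MF n, SmM s → (∀ x, (s x).IsSymm) →
  (∀ i j, Cl K ε (fun x => s x i j - (1 : Matrix (Fin n) (Fin n) ℝ) i j)) →
  (∀ x ∈ Eb (0 : V n) 24, ∀ j, ∑ i, pd i (fun y => s y i j) x = 0) →
  ∀ g : V n → ℝ, Lvl n M σ₀ c₀ g → ∀ O : Set (V n), IsOpen O → O ⊆ Ao n (4 / 5) 24 →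
  ∀ ρ : ℝ, ρ₀ ≤ ρ → 1 ≤ ρ → S3.Solv O s (fun x => g (iv x)) ρ (C / ρ ^ 3)

/-! ## The main term -/

/-- The cut-off in depth: `0` for `k ≤ kap ^ (1/2)`, `1` for `k ≥ kap ^ (3/4)`. -/
def cg (n : ℕ) (σ R kap Gs : ℝ) (x : V n) : ℝ :=
  Real.smoothTransition ((R * (gx n σ x - Gs) + Real.log kap / 2) / (Real.log kap / 4))

/-- The main term. -/
def It {n : ℕ} (s₁ s₂ : MF n) (σ N R kap Gs : ℝ) : ℝ :=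
  ∫ x in Ac n (99 / 100) 12, cg n σ R kap Gs x ^ 2 *
    R2.H238.S3.nh (tfp s₁ (fun x => s₂ x - s₁ x)) x * Real.exp (2 * (N * R * (gx n σ x - Gs)))

/-- **P3.** The lower bound of the main term. -/
def RowP3 : Prop := ∀ n : ℕ, 3 ≤ n → ∀ σ : ℝ, 0 < σ → σ ≤ 1 / 10 → ∃ q₀ : ℝ, ∀ q : ℝ, q₀ ≤ q →
  ∃ N₀ : ℝ, ∀ N : ℝ, N₀ ≤ N → ∃ (K : ℕ) (ε : ℝ), 0 < ε ∧ ∀ s : ℝ, 0 < s → s ≤ 1 → ∀ C : ℝ, 0 ≤ C →
  ∃ C' C₀ R₀ η : ℝ, 0 ≤ C' ∧ 0 < η ∧ ∀ (s₁ s₂ : MF n) (G : Set (V n)), Nrm K ε s₁ s₂ G →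
  ∀ (R kap Gs δ : ℝ) (ps : V n), R₀ ≤ R → 1 ≤ R → R ^ C₀ ≤ kap → kap ≤ Real.exp (η * R) →
    -η ≤ Gs → SelD s₁ s₂ σ N q 1 C s R kap Gs δ ps →
    δ ^ 2 ≤ C' * R ^ C' * kap ^ ((n + 4) * s) * It s₁ s₂ σ N R kap Gs

/-! ## The quasimode -/

/-- The quasimode. -/
structure QK {n : ℕ} (s₁ s₂ : MF n) (σ a b c C₁ C' s ν D R kap Gs δ : ℝ) (K : ℕ)
    (K0 : VV n → ℝ) : Prop where
  sm : ContDiff ℝ ∞ K0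
  cs : HasCompactSupport K0
  su : ∀ z, K0 z ≠ 0 → z.1 ∈ Zq n ∧ z.2 ∈ Zq n ∧ ‖z.1 - z.2‖ ≤ 1 / R ^ 2
  /-- the weighted size of the error -/
  er : ∀ W w : VV n → ℝ, WB s₁ s₂ σ a b c C₁ ν R kap Gs W w →
    ∫ z, Real.exp (-(2 * W z)) * (Lx s₁ K0 z ^ 2 + Ly s₂ K0 z ^ 2) / w z ≤
      C' * R ^ C' * kap ^ (4 * s) * δ ^ 2 * kap ^ (-(n + 4 + a) : ℝ)
  /-- the jets of the error near the diagonal -/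
  jt : ∀ p ∈ Ac n 1 12, ∀ l ≤ K, ∀ z ∈ Metric.ball (p, p) (2 / (R ^ C₁ + kk n σ R kap Gs p)),
    ‖iteratedFDeriv ℝ l (fun z => Lx s₁ K0 z + Ly s₂ K0 z) z‖ ≤
      C' * R ^ C' * kap ^ (2 * s - 2) * δ * Real.exp ((ν + D) * R * (gx n σ p - Gs)) *
        Real.exp (-((D + n + 4) * R * |gx n σ p - Gs|)) * (R ^ C₁ + kk n σ R kap Gs p) ^ l
  /-- the far values -/
  fa : ∀ x ∈ Oc n, ∀ y ∈ Oc n, (x ∈ Ac n 9 24 ∨ y ∈ Ac n 9 24) →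
    |K0 (x, y)| ≤ C' * Real.exp (-(ν * R / 2))
  /-- the value of the form -/
  pr : ∀ χ : V n → ℝ, ContDiff ℝ ∞ χ → (∀ x ∉ Ac n (998 / 1000) 12, χ x = 0) →
    (∀ x ∈ Ao n (999 / 1000) 11, χ x = 1) →
    (∀ x, |χ x| ≤ 1) → ∀ B : ℝ, (∀ i x, |pd i χ x| ≤ B) →
    |(∫ x, χ x * ∑ i, ∑ j, (s₂ x i j - s₁ x i j) * dx i (dy j K0) (x, x)) -
      It s₁ s₂ σ (ν + D) R kap Gs| ≤ C' * (1 + B) * Real.exp (-(ν * R / 2))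

/-- **P4.** Existence of the quasimode (`b`, `a`, `c`, `C₁` are the constants of the weight). -/
def RowP4 : Prop := ∀ n : ℕ, 3 ≤ n → ∀ σ a b : ℝ, 0 < σ → σ ≤ 1 / 10 → 0 < a → a ≤ 4 → 0 ≤ b →
  ∀ D : ℝ, 2 * b + n + 4 + a + 10 ≤ D → ∃ q : ℝ, 0 ≤ q ∧ ∃ ν₀ : ℝ, ∀ ν : ℝ, ν₀ ≤ ν → ∀ K : ℕ,
  ∃ (J K' : ℕ) (ε : ℝ), 0 < ε ∧ ∀ s : ℝ, 0 < s → s ≤ 1 → ∀ c C₁ C : ℝ, 0 < c → 3 ≤ C₁ → 0 ≤ C →
  ∃ C' C₀ R₀ η : ℝ, 0 ≤ C' ∧ 0 < η ∧ ∀ (s₁ s₂ : MF n) (G : Set (V n)), Nrm K' ε s₁ s₂ G →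
  ∀ (R kap Gs δ : ℝ) (ps : V n), R₀ ≤ R → 1 ≤ R → R ^ C₀ ≤ kap → kap ≤ Real.exp (η * R) →
    -η ≤ Gs → SelD s₁ s₂ σ (ν + D) q J C s R kap Gs δ ps →
    ∃ K0 : VV n → ℝ, QK s₁ s₂ σ a b c C₁ C' s ν D R kap Gs δ K K0

/-! ## The assembly -/

/-- **P5.** -/
def RowP5 : Prop := RowSOLW → RowP1 → RowP2 → RowP3 → RowP4 → RowCORE3n

end Vale.Agent.P088.HY.T4
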