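import Vale.Agent.P088.R2.H404.Spec4

/-!
# P088, stage 3, row P1: flatness at the touching ball, the level function
-/

open MeasureTheory Set Filter Topology
open scoped ContDiff Matrix

noncomputable section

namespace Vale.Agent.P088.HY.T4

open Vale.Agent.P088.LR Vale.Agent.P088.HY.T3

variable {n : ℕ}

theorem sq_smul' (t : ℝ) (x : V n) : sq (t • x) = t ^ 2 * sq x := by
  unfold sq
  rw [Finset.mul_sum]
  refine Finset.sum_congr rfl fun i _ => ?_
  rw [Pi.smul_apply, smul_eq_mul]; ring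

theorem sq_nonneg' (x : V n) : 0 ≤ sq x := Finset.sum_nonneg fun _ _ => sq_nonneg _

theorem fderiv_eq_sum (f : V n → ℝ) (x u : V n) :
    fderiv ℝ f x u = ∑ i, u i * LR.pd i f x := by
  have h : u = ∑ i, u i • (Pi.single i 1 : V n) := by
    ext j
    simp [Finset.sum_apply, Pi.single_apply]
  conv_lhs => rw [h]
  rw [map_sum]
  refine Finset.sum_congr rfl fun i _ => ?_
  rw [map_smul, smul_eq_mul]
  rfl

/-- a smooth function which vanishes in the unit ball vanishes to infinite order at its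
boundary -/
theorem flat (j : ℕ) : ∀ f : V n → ℝ, ContDiff ℝ ∞ f → (∀ x ∈ Eb (0 : V n) 1, f x = 0) →
    ∃ C, 0 ≤ C ∧ ∀ x ∈ Ac n 1 23, |f x| ≤ C * (√(sq x) - 1) ^ j := by
  induction j with
  | zero =>
    intro f hf _
    obtain ⟨C, hC⟩ := (isCompact_Ac (n := n) 1 23).exists_bound_of_continuousOn
      hf.continuous.continuousOn
    refine ⟨|C|, abs_nonneg _, fun x hx => ?_⟩
    rw [pow_zero, mul_one]
    exact (hC x hx).trans (le_abs_self C)
  | succ j ih =>
    intro f hf h0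
    have hop : IsOpen (Eb (0 : V n) 1) := isOpen_Eb _ _
    have h1 : ∀ i, ∃ C, 0 ≤ C ∧ ∀ x ∈ Ac n 1 23, |LR.pd i f x| ≤ C * (√(sq x) - 1) ^ j := by
      intro i
      refine ih (LR.pd i f) ?_ fun x hx => pd_zero_of hop h0 hx i
      exact (hf.fderiv_right (m := ∞) le_rfl).clm_apply contDiff_const
    choose C hC0 hC using h1
    refine ⟨∑ i, C i, Finset.sum_nonneg fun i _ => hC0 i, fun x hx => ?_⟩
    obtain ⟨r, hr⟩ : ∃ r, r = √(sq x) := ⟨_, rfl⟩
    have hr1 : 1 ≤ r := hr ▸ hx.1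
    have hr23 : r ≤ 23 := hr ▸ hx.2
    have hr0 : 0 < r := by linarith
    obtain ⟨u, hu⟩ : ∃ u : V n, u = (1 / r) • x := ⟨_, rfl⟩
    have hsu : sq u = 1 := by
      rw [hu, sq_smul']
      have : r ^ 2 = sq x := by rw [hr]; exact Real.sq_sqrt (sq_nonneg' x)
      rw [← this]; field_simp
    have hui : ∀ i, |u i| ≤ 1 := by
      intro i
      have h2 : u i ^ 2 ≤ 1 := by
        rw [← hsu]
        exact Finset.single_le_sum (f := fun j => u j ^ 2) (fun j _ => sq_nonneg _)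
          (Finset.mem_univ i)
      exact abs_le_one_iff_mul_self_le_one.2 (by nlinarith)
    have hst : ∀ t : ℝ, 0 ≤ t → √(sq (t • u)) = t := by
      intro t ht
      rw [sq_smul', hsu, mul_one]; exact Real.sqrt_sq ht
    have hxu : x = r • u := by
      rw [hu, smul_smul]; field_simp; simp
    have hfu : f ((1 : ℝ) • u) = 0 := by
      have c1 : Continuous fun t : ℝ => f (t • u) := hf.continuous.comp (by fun_prop)
      have t1 : Tendsto (fun t : ℝ => f (t • u)) (𝓝[<] 1) (𝓝 (f ((1 : ℝ) • u))) :=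
        (c1.tendsto 1).mono_left nhdsWithin_le_nhds
      have t2 : Tendsto (fun t : ℝ => f (t • u)) (𝓝[<] 1) (𝓝 0) := by
        refine Tendsto.congr' ?_ tendsto_const_nhds
        have : Ioo (0 : ℝ) 1 ∈ 𝓝[<] (1 : ℝ) := Ioo_mem_nhdsLT one_pos
        filter_upwards [this] with t ht
        refine (h0 _ ?_).symm
        rw [mem_Eb0 one_pos, hst t ht.1.le]
        exact ht.2
      exact tendsto_nhds_unique t1 t2
    have hd : ∀ t : ℝ, HasDerivAt (fun t : ℝ => f (t • u)) (fderiv ℝ f (t • u) u) t := by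
      intro t
      have d1 : HasDerivAt (fun t : ℝ => t • u) u t := by
        simpa using (hasDerivAt_id t).smul_const u
      have d2 := ((hf.differentiable (by simp)).differentiableAt (x := t • u)).hasFDerivAt
      exact d2.comp_hasDerivAt t d1
    have hb : ∀ t ∈ Ico (1 : ℝ) r, ‖fderiv ℝ f (t • u) u‖ ≤ (∑ i, C i) * (r - 1) ^ j := by
      intro t ht
      rw [fderiv_eq_sum, Real.norm_eq_abs]
      refine (Finset.abs_sum_le_sum_abs _ _).trans ?_
      rw [Finset.sum_mul]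
      refine Finset.sum_le_sum fun i _ => ?_
      rw [abs_mul]
      have m1 : t • u ∈ Ac n 1 23 := by
        constructor <;> rw [hst t (by linarith [ht.1])] <;> linarith [ht.1, ht.2]
      have b1 := hC i _ m1
      rw [hst t (by linarith [ht.1])] at b1
      have b2 : (t - 1) ^ j ≤ (r - 1) ^ j := pow_le_pow_left₀ (by linarith [ht.1]) (by linarith [ht.2]) j
      calc |u i| * |LR.pd i f (t • u)| ≤ 1 * (C i * (t - 1) ^ j) :=
            mul_le_mul (hui i) b1 (abs_nonneg _) zero_le_one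
        _ ≤ C i * (r - 1) ^ j := by
            rw [one_mul]; exact mul_le_mul_of_nonneg_left b2 (hC0 i)
    have h3 := norm_image_sub_le_of_norm_deriv_le_segment' (f := fun t : ℝ => f (t • u))
      (f' := fun t => fderiv ℝ f (t • u) u) (a := 1) (b := r)
      (fun t _ => (hd t).hasDerivWithinAt) hb r (right_mem_Icc.2 hr1)
    change ‖f (r • u) - f ((1 : ℝ) • u)‖ ≤ _ at h3
    rw [hfu, sub_zero, ← hxu, Real.norm_eq_abs] at h3
    rw [← hr]
    refine h3.trans (le_of_eq ?_)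
    ring

/-! ### the level function -/

theorem sq_e0 (hn : 1 ≤ n) : sq (e0 n) = 1 := by
  unfold sq e0
  rw [Finset.sum_eq_single (⟨0, by omega⟩ : Fin n)]
  · simp
  · intro b _ hb
    have : b.val ≠ 0 := fun h => hb (Fin.ext h)
    simp [this]
  · simp

theorem gy_eq (hn : 1 ≤ n) (σ : ℝ) (y : V n) :
    gy n σ y = -((1 - sq y) / 2 + (1 - σ) / 2 * sq (y - e0 n)) := by
  have h1 : sq (y - e0 n) = sq y - 2 * (∑ i, y i * e0 n i) + 1 := by
    rw [← sq_e0 hn]
    unfold sq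
    rw [Finset.mul_sum, ← Finset.sum_sub_distrib, ← Finset.sum_add_distrib]
    refine Finset.sum_congr rfl fun i _ => ?_
    rw [Pi.sub_apply]; ring
  unfold gy
  have h2 : (∑ i, y i * e0 n i) = (sq y + 1 - sq (y - e0 n)) / 2 := by linarith
  rw [h2]; ring

theorem sq_iv {x : V n} (hx : sq x ≠ 0) : sq (iv x) = 1 / sq x := by
  have : iv x = (1 / sq x) • x := by
    ext i; unfold iv; rw [Pi.smul_apply, smul_eq_mul]; ring
  rw [this, sq_smul']
  field_simp

theorem gx_le (hn : 1 ≤ n) {σ : ℝ} (hσ : σ ≤ 1) {x : V n} (hx : x ∈ Ac n 1 23) :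
    (√(sq x) - 1) / 46 ≤ -gx n σ x := by
  obtain ⟨r, hr⟩ : ∃ r, r = √(sq x) := ⟨_, rfl⟩
  have hr1 : 1 ≤ r := hr ▸ hx.1
  have hr23 : r ≤ 23 := hr ▸ hx.2
  have hr2 : r ^ 2 = sq x := by rw [hr]; exact Real.sq_sqrt (sq_nonneg' x)
  have hr0 : 0 < r := by linarith
  have hs : sq x ≠ 0 := by rw [← hr2]; positivity
  rw [← hr]
  unfold gx
  rw [gy_eq hn, sq_iv hs, neg_neg, ← hr2]
  have h1 : 0 ≤ (1 - σ) / 2 * sq (iv x - e0 n) :=
    mul_nonneg (by linarith) (sq_nonneg' _)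
  have h2 : (r - 1) / 46 ≤ (1 - 1 / r ^ 2) / 2 := by
    rw [div_le_div_iff₀ (by norm_num) (by norm_num)]
    have h3 : (r - 1) * (r ^ 2) ≤ (r ^ 2 - 1) * 23 := by
      have e1 : 0 ≤ 23 * (r + 1) - r ^ 2 := by nlinarith
      nlinarith [mul_nonneg (sub_nonneg.2 hr1) e1]
    have h4 : (1 - 1 / r ^ 2) * 46 = (r ^ 2 - 1) * 46 / r ^ 2 := by field_simp
    rw [h4, le_div_iff₀ (by positivity)]
    nlinarith
  linarith

theorem gx_cd (σ : ℝ) : ContDiffOn ℝ ∞ (gx n σ) {x : V n | sq x ≠ 0} := by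
  have h1 : ContDiffOn ℝ ∞ (iv : V n → V n) {x : V n | sq x ≠ 0} := by
    rw [contDiffOn_pi]
    intro i
    have h2 : ContDiff ℝ ∞ fun x : V n => sq x := by
      unfold sq; fun_prop
    have h3 : ContDiff ℝ ∞ fun x : V n => x i := by fun_prop
    exact h3.contDiffOn.div h2.contDiffOn fun x hx => hx
  have h4 : ContDiff ℝ ∞ (gy n σ) := by
    unfold gy sq
    simp only [Pi.sub_apply]
    fun_prop
  exact h4.comp_contDiffOn h1

theorem isOpen_ne : IsOpen {x : V n | sq x ≠ 0} :=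
  isOpen_ne_fun continuous_sq continuous_const

theorem gx_e0 (hn : 1 ≤ n) (σ : ℝ) : gx n σ (e0 n) = 0 := by
  have h1 : iv (e0 n) = e0 n := by
    ext i; unfold iv; rw [sq_e0 hn, div_one]
  unfold gx
  rw [h1, gy_eq hn, sq_e0 hn, sub_self, sub_self]
  unfold sq
  simp

theorem gx_near (hn : 1 ≤ n) (σ : ℝ) {η : ℝ} (hη : 0 < η) :
    ∃ δ : ℝ, 0 < δ ∧ ∀ x ∈ Eb (e0 n) δ, |gx n σ x| < η := by
  have h0 : e0 n ∈ {x : V n | sq x ≠ 0} := by
    show sq (e0 n) ≠ 0; rw [sq_e0 hn]; exact one_ne_zero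
  have h1 : ContinuousAt (gx n σ) (e0 n) :=
    ((gx_cd σ).continuousOn.continuousAt (isOpen_ne.mem_nhds h0))
  obtain ⟨δ, hδ, h2⟩ := Metric.continuousAt_iff.1 h1 η hη
  refine ⟨δ, hδ, fun x hx => ?_⟩
  have h3 : dist x (e0 n) < δ := by
    rw [dist_eq_norm, pi_norm_lt_iff hδ]
    intro i
    have h4 : (x - e0 n) i ^ 2 ≤ sq (x - e0 n) := Finset.single_le_sum
      (f := fun j => (x - e0 n) j ^ 2) (fun j _ => sq_nonneg _) (Finset.mem_univ i)
    have h5 : sq (x - e0 n) < δ ^ 2 := hx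
    rw [Real.norm_eq_abs]
    exact abs_lt_of_sq_lt_sq (by linarith) hδ.le
  have h6 := h2 h3
  rwa [gx_e0 hn, Real.dist_eq, sub_zero] at h6

/-- the level function is Lipschitz near the annulus -/
theorem gx_lip (σ : ℝ) : ∃ Λ : ℝ, 1 ≤ Λ ∧ ∀ y ∈ Ac n (4 / 5) 22, ∀ r : ℝ, 0 < r →
    (n + 1) * r ≤ 1 / 10 → ∀ x ∈ Metric.ball y r, ∀ x' ∈ Metric.ball y r,
    |gx n σ x - gx n σ x'| ≤ Λ * dist x x' := by
  have hK := isCompact_Ac (n := n) (7 / 10) 23
  have hsub : Ac n (7 / 10) 23 ⊆ {x : V n | sq x ≠ 0} := by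
    intro x hx h0
    have h1 : 7 / 10 ≤ √(sq x) := hx.1
    rw [h0, Real.sqrt_zero] at h1
    linarith
  have hc : ContinuousOn (fderiv ℝ (gx n σ)) (Ac n (7 / 10) 23) :=
    ((gx_cd σ).continuousOn_fderiv_of_isOpen isOpen_ne (by simp)).mono hsub
  obtain ⟨Λ, hΛ⟩ := hK.exists_bound_of_continuousOn hc
  refine ⟨max Λ 1, le_max_right _ _, fun y hy r hr hr1 x hx x' hx' => ?_⟩
  have hbs : Metric.ball y r ⊆ Ac n (7 / 10) 23 := by
    intro z hz
    obtain ⟨h1, h2⟩ := rt_ball hr.le hz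
    exact ⟨by linarith [hy.1], by linarith [hy.2]⟩
  have h := (convex_ball y r).norm_image_sub_le_of_norm_fderiv_le (𝕜 := ℝ) (f := gx n σ) (C := Λ)
    (fun z hz => ((gx_cd σ).differentiableOn (by simp)).differentiableAt
      (isOpen_ne.mem_nhds (hsub (hbs hz)))) (fun z hz => hΛ z (hbs hz)) hx' hx
  rw [Real.norm_eq_abs, ← dist_eq_norm] at h
  exact h.trans (mul_le_mul_of_nonneg_right (le_max_left _ _) dist_nonneg)

end Vale.Agent.P088.HY.T4
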