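import Vale.Agent.P088.R2.H404.P1a
import Vale.Agent.P088.R2.H404.Sel
import Vale.Agent.P088.R2.H404.WI

/-!
# P088, stage 3, row P1: selection and jets
-/

open MeasureTheory Set Filter Topology
open scoped ContDiff Matrix

noncomputable section

namespace Vale.Agent.P088.HY.T4

open Vale.Agent.P088.LR Vale.Agent.P088.HY.T3

variable {n : ℕ}

/-- the size of `s₂ - s₁` -/
def uh (s₁ s₂ : MF n) (x : V n) : ℝ := √(R2.H238.S3.nh (fun x => s₂ x - s₁ x) x)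

theorem nh_eq (s₁ s₂ : MF n) (x : V n) : R2.H238.S3.nh (fun x => s₂ x - s₁ x) x =
    ∑ i, ∑ j, (s₂ x i j - s₁ x i j) ^ 2 := rfl

theorem nh_nonneg' (h : MF n) (x : V n) : 0 ≤ R2.H238.S3.nh h x :=
  Finset.sum_nonneg fun _ _ => Finset.sum_nonneg fun _ _ => sq_nonneg _

theorem entry_le (s₁ s₂ : MF n) (x : V n) (i j : Fin n) : |s₂ x i j - s₁ x i j| ≤ uh s₁ s₂ x := by
  unfold uh
  rw [nh_eq]
  refine Real.abs_le_sqrt ?_
  calc (s₂ x i j - s₁ x i j) ^ 2 ≤ ∑ j, (s₂ x i j - s₁ x i j) ^ 2 :=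
        Finset.single_le_sum (f := fun j => (s₂ x i j - s₁ x i j) ^ 2) (fun _ _ => sq_nonneg _)
          (Finset.mem_univ j)
    _ ≤ _ := Finset.single_le_sum (f := fun i => ∑ j, (s₂ x i j - s₁ x i j) ^ 2)
          (fun _ _ => Finset.sum_nonneg fun _ _ => sq_nonneg _) (Finset.mem_univ i)

theorem uh_flat {K : ℕ} {ε : ℝ} {s₁ s₂ : MF n} {G : Set (V n)} (hN : Nrm K ε s₁ s₂ G) (hn : 1 ≤ n)
    {σ : ℝ} (hσ : σ ≤ 1) (j : ℕ) : ∃ C : ℝ, ∀ x ∈ Ac n 1 23 ∩ Gᶜ,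
    uh s₁ s₂ x ≤ C * (-gx n σ x) ^ j := by
  have h1 : ∀ i k, ∃ C, 0 ≤ C ∧ ∀ x ∈ Ac n 1 23,
      |s₂ x i k - s₁ x i k| ≤ C * (√(sq x) - 1) ^ j := by
    intro i k
    refine flat j (fun x => s₂ x i k - s₁ x i k) ((hN.sm₂ i k).sub (hN.sm₁ i k)) fun x hx => ?_
    have h2 : s₂ x = s₁ x := hN.eq x ⟨hN.b1 hx, by
      rw [mem_Eb0 one_pos] at hx; rw [mem_Eb0 (by norm_num)]; linarith⟩
    show s₂ x i k - s₁ x i k = 0
    rw [h2, sub_self]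
  choose C hC0 hC using h1
  refine ⟨√(∑ i, ∑ k, C i k ^ 2) * 46 ^ j, fun x hx => ?_⟩
  have hx1 := hx.1
  have hg := gx_le hn hσ hx1
  have hr : 0 ≤ √(sq x) - 1 := by linarith [hx1.1]
  have h3 : (√(sq x) - 1) ^ j ≤ 46 ^ j * (-gx n σ x) ^ j := by
    rw [← mul_pow]
    exact pow_le_pow_left₀ hr (by linarith) j
  have h4 : uh s₁ s₂ x ≤ √(∑ i, ∑ k, C i k ^ 2) * (√(sq x) - 1) ^ j := by
    unfold uh
    rw [nh_eq]
    refine Real.sqrt_le_iff.2 ⟨by positivity, ?_⟩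
    rw [mul_pow, Real.sq_sqrt (Finset.sum_nonneg fun _ _ => Finset.sum_nonneg fun _ _ =>
      sq_nonneg _), Finset.sum_mul]
    refine Finset.sum_le_sum fun i _ => ?_
    rw [Finset.sum_mul]
    refine Finset.sum_le_sum fun k _ => ?_
    rw [← mul_pow, ← sq_abs]
    exact pow_le_pow_left₀ (abs_nonneg _) (hC i k x hx1) 2
  calc uh s₁ s₂ x ≤ √(∑ i, ∑ k, C i k ^ 2) * (√(sq x) - 1) ^ j := h4
    _ ≤ √(∑ i, ∑ k, C i k ^ 2) * (46 ^ j * (-gx n σ x) ^ j) :=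
        mul_le_mul_of_nonneg_left h3 (Real.sqrt_nonneg _)
    _ = _ := by ring

theorem uh_supp {K : ℕ} {ε : ℝ} {s₁ s₂ : MF n} {G : Set (V n)} (hN : Nrm K ε s₁ s₂ G) (hn : 1 ≤ n)
    {σ : ℝ} (hneg : ∀ δ : ℝ, 0 < δ → ∃ x ∈ Eb (e0 n) δ, s₂ x ≠ s₁ x) {η : ℝ} (hη : 0 < η) :
    ∃ x ∈ Ac n 1 23 ∩ Gᶜ, 0 < uh s₁ s₂ x ∧ -η < gx n σ x := by
  obtain ⟨δ, hδ, h1⟩ := gx_near hn σ hη
  obtain ⟨x, hx, hne⟩ := hneg (min δ 1) (lt_min hδ one_pos)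
  have hx' : sq (x - e0 n) < (min δ 1) ^ 2 := hx
  have hx1 : x ∈ Eb (e0 n) δ := by
    show sq (x - e0 n) < δ ^ 2
    exact hx'.trans_le (pow_le_pow_left₀ (le_min hδ.le zero_le_one) (min_le_left _ _) 2)
  have hx2 : √(sq x) ≤ 2 := by
    have h2 := rt_sub x (e0 n)
    rw [sq_e0 hn, Real.sqrt_one] at h2
    have h3 : √(sq (x - e0 n)) ≤ 1 := by
      refine Real.sqrt_le_iff.2 ⟨zero_le_one, ?_⟩
      exact hx'.le.trans (pow_le_pow_left₀ (le_min hδ.le zero_le_one) (min_le_right _ _) 2)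
    linarith
  have hG : x ∉ G := fun h => hne (hN.eq x ⟨h, by rw [mem_Eb0 (by norm_num)]; linarith⟩)
  have hx3 : 1 ≤ √(sq x) := by
    by_contra h
    push Not at h
    exact hG (hN.b1 ((mem_Eb0 one_pos).2 h))
  refine ⟨x, ⟨⟨hx3, by linarith⟩, hG⟩, ?_, (abs_lt.1 (h1 x hx1)).1⟩
  have : ∃ i j, s₂ x i j - s₁ x i j ≠ 0 := by
    by_contra hcon
    push Not at hcon
    exact hne (Matrix.ext fun i j => sub_eq_zero.1 (hcon i j))
  obtain ⟨i, j, hij⟩ := this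
  exact lt_of_lt_of_le (abs_pos.2 hij) (entry_le s₁ s₂ x i j)

theorem uh_cont {s₁ s₂ : MF n} (h₁ : SmM s₁) (h₂ : SmM s₂) : Continuous (uh s₁ s₂) := by
  unfold uh
  refine Continuous.sqrt ?_
  change Continuous fun x => ∑ i, ∑ j, (s₂ x i j - s₁ x i j) ^ 2
  exact continuous_finsetSum _ fun i _ => continuous_finsetSum _ fun j _ =>
    ((h₂ i j).continuous.sub (h₁ i j).continuous).pow 2

theorem uh_bd {s₁ s₂ : MF n} (h₁ : SmM s₁) (h₂ : SmM s₂) (m : ℕ) : ∃ H : ℝ, 1 ≤ H ∧ ∀ i j,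
    ∀ x ∈ Ac n 0 24, |s₂ x i j - s₁ x i j| ≤ H ∧
      ‖iteratedFDeriv ℝ m (fun y => s₂ y i j - s₁ y i j) x‖ ≤ H := by
  have hK := isCompact_Ac (n := n) 0 24
  have h : ∀ i j, ∃ H : ℝ, 0 ≤ H ∧ ∀ x ∈ Ac n 0 24, |s₂ x i j - s₁ x i j| ≤ H ∧
      ‖iteratedFDeriv ℝ m (fun y => s₂ y i j - s₁ y i j) x‖ ≤ H := by
    intro i j
    have hs : ContDiff ℝ ∞ fun y => s₂ y i j - s₁ y i j := (h₂ i j).sub (h₁ i j)
    obtain ⟨A, hA⟩ := hK.exists_bound_of_continuousOn hs.continuous.continuousOn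
    obtain ⟨B, hB⟩ := hK.exists_bound_of_continuousOn
      ((hs.continuous_iteratedFDeriv (m := m) (by exact_mod_cast le_top)).continuousOn)
    refine ⟨max (max A B) 0, le_max_right _ _, fun x hx => ⟨?_, ?_⟩⟩
    · exact (hA x hx).trans ((le_max_left _ _).trans (le_max_left _ _))
    · exact (hB x hx).trans ((le_max_right _ _).trans (le_max_left _ _))
  choose H hH0 hH using h
  refine ⟨1 + ∑ i, ∑ j, H i j, ?_, fun i j x hx => ?_⟩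
  · have : 0 ≤ ∑ i, ∑ j, H i j := Finset.sum_nonneg fun i _ => Finset.sum_nonneg fun j _ => hH0 i j
    linarith
  · have h1 : H i j ≤ ∑ i, ∑ j, H i j :=
      (Finset.single_le_sum (f := fun j => H i j) (fun j _ => hH0 i j) (Finset.mem_univ j)).trans
        (Finset.single_le_sum (f := fun i => ∑ j, H i j)
          (fun i _ => Finset.sum_nonneg fun j _ => hH0 i j) (Finset.mem_univ i))
    exact ⟨(hH i j x hx).1.trans (by linarith), (hH i j x hx).2.trans (by linarith)⟩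

/-- powers of the small parameter -/
theorem kap_pow {δ kap N t : ℝ} (hk : 1 ≤ kap) (ht : 0 ≤ t)
    (h : ∃ m : ℝ, N / 2 ≤ m ∧ m ≤ 2 * N ∧ δ * kap ^ m = 1) : δ ^ (-t) ≤ kap ^ (2 * N * t) := by
  have hk0 : 0 < kap := by linarith
  obtain ⟨m, -, hm, h⟩ := h
  have h1 : δ = kap ^ (-m) := by
    rw [Real.rpow_neg hk0.le]
    exact eq_inv_of_mul_eq_one_left h
  rw [h1, ← Real.rpow_mul hk0.le]
  refine Real.rpow_le_rpow_of_exponent_le hk ?_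
  nlinarith

/-- the final inequality of the jets -/
theorem jet_fin {C₁ H N R Λ r₁ kap s δ E X e1 e2 Cf : ℝ} {J : ℕ} (hC₁ : 0 ≤ C₁) (hH : 0 ≤ H)
    (hNR : 0 ≤ N * Λ / r₁) (hR : 1 ≤ R) (hk : 1 ≤ kap) (hδ : 0 < δ) (hE : 0 ≤ E)
    (he1 : e1 ≤ s / 2) (he2 : e2 ≤ s / 2) (hCf : C₁ * (H * (N * Λ / r₁) ^ J) ≤ Cf)
    (hCf' : (J : ℝ) ≤ Cf)
    (h : X ≤ C₁ * (H * kap ^ e1 * (N * R * Λ / r₁) ^ J) * (δ * kap ^ e2 * E)) :
    X ≤ Cf * R ^ Cf * kap ^ s * δ * E := by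
  have hk0 : 0 < kap := by linarith
  have hR0 : 0 < R := by linarith
  have h1 : (N * R * Λ / r₁) ^ J = (N * Λ / r₁) ^ J * R ^ J := by
    rw [← mul_pow]; congr 1; ring
  have h2 : kap ^ e1 * kap ^ e2 ≤ kap ^ s := by
    rw [← Real.rpow_add hk0]
    exact Real.rpow_le_rpow_of_exponent_le hk (by linarith)
  have h3 : R ^ J ≤ R ^ Cf := by
    rw [← Real.rpow_natCast]
    exact Real.rpow_le_rpow_of_exponent_le hR hCf'
  have h4 : 0 ≤ C₁ * (H * (N * Λ / r₁) ^ J) := by positivity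
  rw [h1] at h
  refine h.trans ?_
  calc C₁ * (H * kap ^ e1 * ((N * Λ / r₁) ^ J * R ^ J)) * (δ * kap ^ e2 * E)
      = C₁ * (H * (N * Λ / r₁) ^ J) * R ^ J * (kap ^ e1 * kap ^ e2) * δ * E := by ring
    _ ≤ Cf * R ^ Cf * kap ^ s * δ * E := by
        have k1 : 0 < kap ^ e1 * kap ^ e2 := by positivity
        have k2 : C₁ * (H * (N * Λ / r₁) ^ J) * R ^ J ≤ Cf * R ^ Cf :=
          mul_le_mul hCf h3 (by positivity) (h4.trans hCf)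
        have k3 : C₁ * (H * (N * Λ / r₁) ^ J) * R ^ J * (kap ^ e1 * kap ^ e2) ≤
            Cf * R ^ Cf * kap ^ s :=
          mul_le_mul k2 h2 k1.le (by have := h4.trans hCf; positivity)
        exact mul_le_mul_of_nonneg_right (mul_le_mul_of_nonneg_right k3 hδ.le) hE

/-- the jets from the localisation -/
theorem p1_jets {s₁ s₂ : MF n} {G : Set (V n)} {K : ℕ} {ε : ℝ} (hNrm : Nrm K ε s₁ s₂ G)
    {σ q s N : ℝ} (hq : 0 ≤ q) (hs : 0 < s) (hN6 : 6 * (q + 1) ≤ N)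
    (hNs : 24 * (q + 1) ^ 2 / s ≤ N) {J m : ℕ} (hm0 : (0 : ℝ) < m)
    (hmJ : J * (N + (q + 1)) ≤ m) (hms : 4 * N * J / s ≤ m) {C₁ Λ H r₁ Cf : ℝ} (hC₁ : 1 ≤ C₁)
    (hw : ∀ (f G : V n → ℝ)
    (y : V n) (r₁ ρ δ L q N Λ H g : ℝ), 0 < r₁ → r₁ ≤ 1 → 1 ≤ ρ → 0 < δ → δ ≤ 1 → 1 ≤ L → 0 ≤ q →
    q ≤ N → 1 ≤ N → 1 ≤ Λ → 1 ≤ H → J * (N + q) ≤ m →
    ContDiffOn ℝ ∞ f (Metric.ball y r₁) →
    (∀ x ∈ Metric.ball y r₁, |f x| ≤ H ∧ ‖iteratedFDeriv ℝ m f x‖ ≤ H) →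
    (∀ x ∈ Metric.ball y r₁, |G x - G y| ≤ Λ * dist x y) →
    (∀ x ∈ Metric.ball y r₁, |f x| * Real.exp (ρ * (G x - g)) ≤
      L * δ * Real.exp (-(ρ * q / N * |G x - g|))) →
    ∀ j ≤ J, ‖iteratedFDeriv ℝ j f y‖ * Real.exp (ρ * (G y - g)) ≤
      C₁ * (H * L * (ρ * Λ / r₁) ^ J) *
        (δ ^ (1 - (J : ℝ) / m) * Real.exp (-(ρ * (q - 1) / N * |G y - g|))))
    (hΛ : 1 ≤ Λ) (hlip : ∀ y ∈ Ac n (4 / 5) 22, ∀ r : ℝ, 0 < r →
    (n + 1) * r ≤ 1 / 10 → ∀ x ∈ Metric.ball y r, ∀ x' ∈ Metric.ball y r,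
    |gx n σ x - gx n σ x'| ≤ Λ * dist x x') (hH : 1 ≤ H) (hbd : ∀ i j,
    ∀ x ∈ Ac n 0 24, |s₂ x i j - s₁ x i j| ≤ H ∧
      ‖iteratedFDeriv ℝ m (fun y => s₂ y i j - s₁ y i j) x‖ ≤ H) (hr0 : 0 < r₁) (hr1 : r₁ ≤ 1)
    (hnr : (n + 1) * r₁ ≤ 1 / 10) (hCf1 : C₁ * (H * (N * Λ / r₁) ^ J) ≤ Cf) (hCf2 : (J : ℝ) ≤ Cf)
    {R kap Gs δ : ℝ} (hR1 : 1 ≤ R) (hk1 : 1 ≤ kap) (hup : 0 < δ) (hup1 : δ < 1)
    (hke : ∃ m : ℝ, N / 2 ≤ m ∧ m ≤ 2 * N ∧ δ * kap ^ m = 1)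
    (hloc : ∀ y ∈ Ac n 1 23 ∩ Gᶜ, uh s₁ s₂ y * Real.exp (N * R * (gx n σ y - Gs)) ≤
      δ ^ (1 - 6 / (N / (q + 1)) ^ 2) * Real.exp (-(N * R / (N / (q + 1))) * |gx n σ y - Gs|))
    (i j : Fin n) (l : ℕ) (hl : l ≤ J) (x : V n) (hx : x ∈ Ac n (4 / 5) 22) :
    ‖iteratedFDeriv ℝ l (fun y => s₂ y i j - s₁ y i j) x‖ *
      Real.exp (N * R * (gx n σ x - Gs)) ≤
      Cf * R ^ Cf * kap ^ s * δ * Real.exp (-(q * R * |gx n σ x - Gs|)) := by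
  have hN1 : 1 ≤ N := by linarith
  have hN0 : 0 < N := by linarith
  have hρ1 : 1 ≤ N * R := by nlinarith
  have hball : ∀ z ∈ Metric.ball x r₁, z ∈ Eb (0 : V n) 23 := by
    intro z hz
    have := (rt_ball hr0.le hz).2
    rw [mem_Eb0 (by norm_num)]
    linarith [hx.2]
  have hball' : ∀ z ∈ Metric.ball x r₁, z ∈ Ac n 0 24 := fun z hz =>
    ⟨Real.sqrt_nonneg _, ((mem_Eb0 (by norm_num)).1 (hball z hz)).le.trans (by norm_num)⟩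
  have hsm' : ContDiff ℝ ∞ fun y => s₂ y i j - s₁ y i j := (hNrm.sm₂ i j).sub (hNrm.sm₁ i j)
  have hδp : (δ : ℝ) ^ (1 - 6 / (N / (q + 1)) ^ 2) ≤ kap ^ (12 * (q + 1) ^ 2 / N) * δ := by
    have h1 := kap_pow (t := 6 / (N / (q + 1)) ^ 2) hk1 (by positivity) hke
    have h2 : 2 * N * (6 / (N / (q + 1)) ^ 2) = 12 * (q + 1) ^ 2 / N := by
      field_simp
      ring
    rw [h2] at h1
    rw [sub_eq_add_neg, Real.rpow_add hup, Real.rpow_one, mul_comm]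
    exact mul_le_mul_of_nonneg_right h1 hup.le
  have hδJ : (δ : ℝ) ^ (1 - (J : ℝ) / m) ≤ δ * kap ^ (2 * N * (J / m)) := by
    rw [sub_eq_add_neg, Real.rpow_add hup, Real.rpow_one]
    exact mul_le_mul_of_nonneg_left (kap_pow hk1 (by positivity) hke) hup.le
  have hL1 : 1 ≤ kap ^ (12 * (q + 1) ^ 2 / N) := Real.one_le_rpow hk1 (by positivity)
  have hyp : ∀ z ∈ Metric.ball x r₁, |s₂ z i j - s₁ z i j| *
      Real.exp (N * R * (gx n σ z - Gs)) ≤ kap ^ (12 * (q + 1) ^ 2 / N) * δ *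
        Real.exp (-(N * R * (q + 1) / N * |gx n σ z - Gs|)) := by
    intro z hz
    have hzE := hball z hz
    by_cases hzK : z ∈ Ac n 1 23 ∩ Gᶜ
    · have h1 := (hloc z hzK).trans (mul_le_mul_of_nonneg_right hδp (Real.exp_pos _).le)
      have h2 : N * R / (N / (q + 1)) = N * R * (q + 1) / N := by field_simp
      rw [h2] at h1
      refine le_trans (mul_le_mul_of_nonneg_right (entry_le s₁ s₂ z i j)
        (Real.exp_pos _).le) (h1.trans (le_of_eq ?_))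
      rw [neg_mul]
    · have h0 : s₂ z = s₁ z := by
        have hz24 : z ∈ Eb (0 : V n) 24 := by
          rw [mem_Eb0 (by norm_num)] at hzE ⊢; linarith
        by_cases hzG : z ∈ G
        · exact hNrm.eq z ⟨hzG, hz24⟩
        · have h1 : √(sq z) < 1 := by
            by_contra hcon
            push Not at hcon
            exact hzK ⟨⟨hcon, ((mem_Eb0 (by norm_num)).1 hzE).le⟩, hzG⟩
          exact absurd (hNrm.b1 ((mem_Eb0 one_pos).2 h1)) hzG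
      have h2 : s₂ z i j - s₁ z i j = 0 := by rw [h0, sub_self]
      rw [h2, abs_zero, zero_mul]
      positivity
  have key := hw (fun y => s₂ y i j - s₁ y i j) (gx n σ) x r₁ (N * R) δ
    (kap ^ (12 * (q + 1) ^ 2 / N)) (q + 1) N Λ H Gs hr0 hr1 hρ1 hup hup1.le
    hL1 (by linarith) (by linarith) hN1 hΛ hH hmJ
    hsm'.contDiffOn (fun z hz => hbd i j z (hball' z hz))
    (fun z hz => hlip x hx r₁ hr0 hnr z hz x (Metric.mem_ball_self hr0)) hyp l hl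
  have hCHL : 0 ≤ C₁ * (H * kap ^ (12 * (q + 1) ^ 2 / N) * (N * R * Λ / r₁) ^ J) := by
    have : 0 < kap := by linarith
    positivity
  have key := key.trans (mul_le_mul_of_nonneg_left
    (mul_le_mul_of_nonneg_right hδJ (Real.exp_pos _).le) hCHL)
  have e2 : N * R * (q + 1 - 1) / N * |gx n σ x - Gs| = q * R * |gx n σ x - Gs| := by
    field_simp; ring
  rw [e2] at key
  refine jet_fin (by linarith) (by linarith) (by positivity) hR1 hk1 hup (Real.exp_pos _).le ?_ ?_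
    hCf1 hCf2 key
  · rw [div_le_iff₀ hs] at hNs
    rw [div_le_div_iff₀ hN0 (by norm_num)]
    linarith
  · rw [div_le_iff₀ hs] at hms
    rw [← mul_div_assoc, div_le_div_iff₀ hm0 (by norm_num)]
    linarith

/-- the selected parameters -/
theorem p1_sel {s₁ s₂ : MF n} {G : Set (V n)} {K : ℕ} {ε : ℝ} (hNrm : Nrm K ε s₁ s₂ G)
    (hn : 1 ≤ n) {σ : ℝ} (hσ1 : σ ≤ 1) (hneg : ∀ δ : ℝ, 0 < δ → ∃ x ∈ Eb (e0 n) δ, s₂ x ≠ s₁ x)
    {q N : ℝ} (hq : 0 ≤ q) (hN6 : 6 * (q + 1) ≤ N) (C₀ R₀ : ℝ) {η : ℝ} (hη : 0 < η) :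
    ∃ (R kap Gs δ : ℝ) (p : V n), R₀ ≤ R ∧ 1 ≤ R ∧ R ^ C₀ ≤ kap ∧ kap ≤ Real.exp (η * R) ∧
      -η ≤ Gs ∧ p ∈ Ac n 1 (11 / 10) ∧ Gs = gx n σ p ∧ Gs ≤ 0 ∧ 0 < δ ∧ δ < 1 ∧
      δ = uh s₁ s₂ p ∧ 1 ≤ kap ∧ δ * kap ^ (N - q / 2) = 1 ∧
      ∀ y ∈ Ac n 1 23 ∩ Gᶜ, uh s₁ s₂ y * Real.exp (N * R * (gx n σ y - Gs)) ≤
      δ ^ (1 - 6 / (N / (q + 1)) ^ 2) * Real.exp (-(N * R / (N / (q + 1))) * |gx n σ y - Gs|) := by
  have hN1 : 1 ≤ N := by linarith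
  have hN0 : 0 < N := by linarith
  obtain ⟨Kc, hKc⟩ : ∃ Kc : Set (V n), Kc = Ac n 1 23 ∩ Gᶜ := ⟨_, rfl⟩
  have hK : IsCompact Kc := by
    rw [hKc]; exact (isCompact_Ac 1 23).inter_right hNrm.oG.isClosed_compl
  have hgc : ContinuousOn (gx n σ) Kc := by
    refine (gx_cd σ).continuousOn.mono fun x hx => ?_
    rw [hKc] at hx
    intro h0
    have h1 : 1 ≤ √(sq x) := hx.1.1
    rw [h0, Real.sqrt_zero] at h1
    linarith
  have hG0 : ∀ p ∈ Kc, gx n σ p ≤ 0 := by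
    intro p hp
    rw [hKc] at hp
    have := gx_le hn hσ1 hp.1 (σ := σ)
    have h1 : 1 ≤ √(sq p) := hp.1.1
    linarith
  have hsupp : ∀ η > 0, ∃ p ∈ Kc, 0 < uh s₁ s₂ p ∧ -η < gx n σ p := by
    intro η hη
    rw [hKc]
    exact uh_supp hNrm hn hneg hη
  have hflat : ∀ j : ℕ, ∃ C : ℝ, ∀ p ∈ Kc, uh s₁ s₂ p ≤ C * (-gx n σ p) ^ j := by
    intro j
    rw [hKc]
    exact uh_flat hNrm hn hσ1 j
  have hN6' : 6 ≤ N / (q + 1) := by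
    rw [le_div_iff₀ (by linarith)]; exact hN6
  obtain ⟨m₂, hm₂⟩ : ∃ m₂ : ℝ, m₂ = N - q / 2 := ⟨_, rfl⟩
  have hm2 : N / 2 ≤ m₂ := by linarith
  have hm2' : m₂ ≤ 2 * N := by linarith
  have hm0 : 0 < m₂ := by linarith
  rw [← hm₂]
  obtain ⟨η', hη'⟩ : ∃ η' : ℝ, η' = min (η / 2) (1 / 500) := ⟨_, rfl⟩
  have hη'0 : 0 < η' := by rw [hη']; exact lt_min (by linarith) (by norm_num)
  have hη'1 : η' ≤ η / 2 := by rw [hη']; exact min_le_left _ _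
  have hη'2 : η' ≤ 1 / 500 := by rw [hη']; exact min_le_right _ _
  obtain ⟨ρ, hρ, p, hp, hup, hup1, hlog, hsm, -, hloc⟩ := R2.H404.exists_selection hK
    (uh_cont hNrm.sm₁ hNrm.sm₂).continuousOn hgc (fun p _ => Real.sqrt_nonneg _) hG0 hsupp hflat
    hN6' (2 * N * (|C₀| + 1)) (N * max R₀ 1) hη'0
  obtain ⟨δ, hδ⟩ : ∃ δ, δ = uh s₁ s₂ p := ⟨_, rfl⟩
  rw [← hδ] at hup hup1 hlog hsm hloc
  obtain ⟨R, hR⟩ : ∃ R, R = ρ / N := ⟨_, rfl⟩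
  have hρR : ρ = N * R := by rw [hR]; field_simp
  have hRR : max R₀ 1 ≤ R := by
    rw [hR, le_div_iff₀ hN0]; linarith
  have hR1 : 1 ≤ R := (le_max_right _ _).trans hRR
  have hR0 : R₀ ≤ R := (le_max_left _ _).trans hRR
  have hρR1 : R ≤ ρ := by rw [hρR]; nlinarith
  have hρ1 : 1 ≤ ρ := hR1.trans hρR1
  obtain ⟨kap, hkap⟩ : ∃ kap : ℝ, kap = δ ^ (-(1 / m₂)) := ⟨_, rfl⟩
  have hk1 : 1 ≤ kap := by
    rw [hkap]
    exact Real.one_le_rpow_of_pos_of_le_one_of_nonpos hup hup1.le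
      (by have : 0 < 1 / m₂ := by positivity
          linarith)
  have hk0 : 0 < kap := by linarith
  have hke : δ * kap ^ m₂ = 1 := by
    rw [hkap, ← Real.rpow_mul hup.le]
    have : -(1 / m₂) * m₂ = -1 := by field_simp
    rw [this, Real.rpow_neg_one]
    exact mul_inv_cancel₀ hup.ne'
  have hlk : Real.log kap = Real.log (1 / δ) / m₂ := by
    rw [hkap, Real.log_rpow hup, one_div, one_div, Real.log_inv]; ring
  have hlρ : 0 ≤ Real.log ρ := Real.log_nonneg hρ1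
  have hld : 0 ≤ Real.log (1 / δ) := by
    rw [one_div, Real.log_inv]
    have := Real.log_nonpos hup.le hup1.le
    linarith
  obtain ⟨Gs, hGs⟩ : ∃ Gs, Gs = gx n σ p := ⟨_, rfl⟩
  rw [← hGs] at hsm hloc
  have hGs0 : Gs ≤ 0 := by rw [hGs]; exact hG0 p hp
  have hGη : -η' ≤ Gs := by
    have h1 : ρ * (-Gs) ≤ η' * ρ := by linarith
    have h2 : ρ * (-Gs) ≤ ρ * η' := by linarith
    have h3 := le_of_mul_le_mul_left h2 (by linarith : (0 : ℝ) < ρ)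
    linarith
  have hpm : p ∈ Ac n 1 23 := by rw [hKc] at hp; exact hp.1
  refine ⟨R, kap, Gs, δ, p, hR0, hR1, ?_, ?_, by linarith, ⟨hpm.1, ?_⟩, hGs, hGs0, hup, hup1,
    hδ, hk1, hke, ?_⟩
  · rw [← Real.log_le_log_iff (by positivity) hk0, Real.log_rpow (by linarith), hlk,
      le_div_iff₀ (by positivity)]
    have h1 : Real.log R ≤ Real.log ρ := Real.log_le_log (by linarith) hρR1
    have h2 : 0 ≤ Real.log R := Real.log_nonneg hR1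
    have h3 : C₀ * Real.log R ≤ (|C₀| + 1) * Real.log ρ := by
      calc C₀ * Real.log R ≤ |C₀| * Real.log R := by gcongr; exact le_abs_self _
        _ ≤ |C₀| * Real.log ρ := by gcongr
        _ ≤ (|C₀| + 1) * Real.log ρ := by nlinarith
    have h4 : 0 ≤ (|C₀| + 1) * Real.log ρ := by positivity
    calc C₀ * Real.log R * m₂ ≤ (|C₀| + 1) * Real.log ρ * m₂ := by gcongr
      _ ≤ (|C₀| + 1) * Real.log ρ * (2 * N) := by gcongr
      _ = 2 * N * (|C₀| + 1) * Real.log ρ := by ring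
      _ ≤ _ := hlog
  · rw [← Real.log_le_iff_le_exp hk0, hlk, div_le_iff₀ (by positivity)]
    have h1 : Real.log (1 / δ) ≤ η' * ρ := by
      have : 0 ≤ ρ * (-Gs) := by
        apply mul_nonneg <;> linarith
      linarith
    rw [hρR] at h1
    have h2 : η' * (N * R) ≤ η * R * m₂ := by
      have h3 : 0 ≤ N * R := by positivity
      calc η' * (N * R) ≤ η / 2 * (N * R) := by gcongr
        _ = η * R * (N / 2) := by ring
        _ ≤ η * R * m₂ := by gcongr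
    linarith
  · have h1 := gx_le hn hσ1 hpm (σ := σ)
    rw [← hGs] at h1
    linarith
  · intro y hy
    have h1 := hloc y (by rw [hKc]; exact hy)
    rw [hρR] at h1
    exact h1

/-- **Row P1.** -/
theorem rowP1 : RowP1 := by
  intro n hn3 σ hσ hσ1 q s hq hs
  have hn : 1 ≤ n := by omega
  refine ⟨6 * (q + 1) + 24 * (q + 1) ^ 2 / s, fun N hN J s₁ s₂ G K ε hNrm hneg => ?_⟩
  have hs' : 0 ≤ 24 * (q + 1) ^ 2 / s := by positivity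
  have hN6 : 6 * (q + 1) ≤ N := by linarith
  have hNs : 24 * (q + 1) ^ 2 / s ≤ N := by linarith
  have hN1 : 1 ≤ N := by linarith
  obtain ⟨m, hm⟩ := exists_nat_ge (max (max (J * (N + (q + 1))) (4 * N * J / s)) 1)
  have hm1 : 1 ≤ m := by
    have : (1 : ℝ) ≤ m := (le_max_right _ _).trans hm
    exact_mod_cast this
  have hmJ : J * (N + (q + 1)) ≤ m := (le_max_left _ _).trans ((le_max_left _ _).trans hm)
  have hms : 4 * N * J / s ≤ m := (le_max_right _ _).trans ((le_max_left _ _).trans hm)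
  have hm0 : (0 : ℝ) < m := by exact_mod_cast hm1
  obtain ⟨C₁, hC₁, hw⟩ := R2.H404.winterp (E := V n) m J hm1
  obtain ⟨Λ, hΛ, hlip⟩ := gx_lip (n := n) σ
  obtain ⟨H, hH, hbd⟩ := uh_bd hNrm.sm₁ hNrm.sm₂ m
  obtain ⟨r₁, hr₁⟩ : ∃ r₁ : ℝ, r₁ = 1 / (10 * (n + 1)) := ⟨_, rfl⟩
  have hn0 : (0 : ℝ) ≤ n := Nat.cast_nonneg n
  have hr0 : 0 < r₁ := by rw [hr₁]; positivity
  have hr1 : r₁ ≤ 1 := by
    rw [hr₁, div_le_one (by positivity)]; nlinarith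
  have hnr : (n + 1) * r₁ ≤ 1 / 10 := by
    rw [hr₁]
    have : ((n : ℝ) + 1) * (1 / (10 * (n + 1))) = 1 / 10 := by field_simp
    linarith
  obtain ⟨Cf, hCf⟩ : ∃ Cf : ℝ, Cf = max (C₁ * (H * (N * Λ / r₁) ^ J)) J := ⟨_, rfl⟩
  have hCf1 : C₁ * (H * (N * Λ / r₁) ^ J) ≤ Cf := by rw [hCf]; exact le_max_left _ _
  have hCf2 : (J : ℝ) ≤ Cf := by rw [hCf]; exact le_max_right _ _
  refine ⟨Cf, (Nat.cast_nonneg _).trans hCf2, fun C₀ R₀ η hη => ?_⟩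
  obtain ⟨R, kap, Gs, δ, p, hR0, hR1, h1, h2, h3, h4, h5, h6, h7, h8, h9, h10, h11, h12⟩ :=
    p1_sel hNrm hn (σ := σ) (by linarith) hneg hq hN6 C₀ R₀ hη
  have hm : ∃ m : ℝ, N / 2 ≤ m ∧ m ≤ 2 * N ∧ δ * kap ^ m = 1 :=
    ⟨N - q / 2, by linarith, by linarith, h11⟩
  refine ⟨R, kap, Gs, δ, p, hR0, hR1, h1, h2, h3, h11, h4, h5, h6, h7, h8, ?_, h10, hm, ?_⟩
  · rw [h9]
    unfold uh
    rw [Real.sq_sqrt (nh_nonneg' _ _)]
  · exact fun i j l hl x hx => p1_jets hNrm hq hs hN6 hNs hm0 hmJ hms hC₁ hw hΛ hlip hH hbd hr0 hr1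
      hnr hCf1 hCf2 hR1 h10 h7 h8 hm h12 i j l hl x hx

end Vale.Agent.P088.HY.T4
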