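import Vale.Agent.P088.R2.H404.P1a
import Vale.Agent.P088.R2.H960.S10
import Vale.Agent.P088.R2.H238.S3.Diag

/-!
# P088, stage 3, row P5: preparations for the assembly
-/

open MeasureTheory Set Filter Topology
open scoped ContDiff Matrix

noncomputable section

namespace Vale.Agent.P088.HY.T4

open Vale.Agent.P088.LR Vale.Agent.P088.HY.T3

variable {n : ℕ}

theorem kk_pos {σ R kap Gs : ℝ} (hk : 0 < kap) (x : V n) : 0 < kk n σ R kap Gs x :=
  mul_pos hk (Real.exp_pos _)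

theorem WB.mono {s₁ s₂ : MF n} {σ a a' b c C C' ν R kap Gs : ℝ} {W w : VV n → ℝ} (hR : 1 ≤ R)
    (hk : 1 ≤ kap) (hc : 0 < c) (ha : a' ≤ a) (hC : C ≤ C')
    (h : WB s₁ s₂ σ a b c C ν R kap Gs W w) : WB s₁ s₂ σ a' b c C' ν R kap Gs W w := by
  have hk0 : 0 < kap := by linarith
  have hR0 : 0 < R := by linarith
  have e1 : R ^ C ≤ R ^ C' := Real.rpow_le_rpow_of_exponent_le hR hC
  have e2 : R ^ (-C') ≤ R ^ (-C) := Real.rpow_le_rpow_of_exponent_le hR (by linarith)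
  have e3 : kap ^ a' ≤ kap ^ a := Real.rpow_le_rpow_of_exponent_le hk ha
  refine ⟨h.Wc, h.wc, h.w0, fun x hx y hy hxy => ?_, fun p hp z hz => ?_, h.W3,
    fun x hx y hy hxy hkk => ?_, fun x hx y hy hxy => ?_, h.sol⟩
  · have := h.W1 x hx y hy hxy
    linarith
  · have hkp := kk_pos (n := n) (σ := σ) (R := R) (Gs := Gs) hk0 p
    have h1 : 0 < R ^ C := by positivity
    have h2 : z ∈ Metric.ball (p, p) (2 / (R ^ C + kk n σ R kap Gs p)) := by
      refine Metric.ball_subset_ball ?_ hz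
      gcongr
    have := h.W2 p hp z h2
    have h3 : C * (1 + Real.log R) ≤ C' * (1 + Real.log R) :=
      mul_le_mul_of_nonneg_right hC (by have := Real.log_nonneg hR; linarith)
    linarith
  · refine le_trans ?_ (h.w1 x hx y hy hxy hkk)
    have h0 : 0 < Real.exp (-(b * R * |gx n σ x - Gs|)) := Real.exp_pos _
    gcongr
  · refine le_trans ?_ (h.w2 x hx y hy hxy)
    have h0 : 0 < Real.exp (-(b * R * |gx n σ x - Gs|)) := Real.exp_pos _
    gcongr

theorem SelD.mono {s₁ s₂ : MF n} {σ N q q' : ℝ} {J J' : ℕ} {C s R kap Gs δ : ℝ} {ps : V n}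
    (hR : 0 ≤ R) (hC : 0 ≤ C) (hq : q' ≤ q) (hJ : J' ≤ J)
    (h : SelD s₁ s₂ σ N q J C s R kap Gs δ ps) : SelD s₁ s₂ σ N q' J' C s R kap Gs δ ps := by
  refine ⟨h.pm, h.gs, h.gs0, h.δ0, h.δ1, h.δe, h.k1, h.ke, fun i j l hl x hx => ?_⟩
  refine (h.jets i j l (hl.trans hJ) x hx).trans ?_
  have hk0 : 0 < kap := by linarith [h.k1]
  have h0 : 0 ≤ C * R ^ C * kap ^ s * δ := by
    have := h.δ0
    positivity
  refine mul_le_mul_of_nonneg_left (Real.exp_le_exp.2 ?_) h0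
  have : 0 ≤ R * |gx n σ x - Gs| := mul_nonneg hR (abs_nonneg _)
  nlinarith

/-- the size of the selected value -/
theorem SelD.exp_ke {kap δ m : ℝ} (hk : 0 < kap) (hke : δ * kap ^ m = 1) :
    δ = Real.exp (-(m * Real.log kap)) := by
  have h1 : δ = kap ^ (-m) := by
    rw [Real.rpow_neg hk.le]
    exact eq_inv_of_mul_eq_one_left hke
  rw [h1, Real.rpow_def_of_pos hk]
  congr 1; ring

/-- the smallness of the difference of the metrics -/
theorem SelD.small {s₁ s₂ : MF n} {σ ν D q : ℝ} {J : ℕ} {C s R kap Gs δ : ℝ} {ps : V n}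
    (hR : 1 ≤ R) (hC : 0 ≤ C) (hs : 0 ≤ s) (hq : 2 * s + 4 ≤ q) (hD : 0 ≤ D)
    (hν : 2 * q + 2 * s + 4 ≤ ν) (hk : C * R ^ C ≤ kap) (hke : δ * kap ^ (ν + D - q / 2) = 1)
    (h : SelD s₁ s₂ σ (ν + D) q J C s R kap Gs δ ps) (i j : Fin n) (l : ℕ)
    (hl : l ≤ J) (x : V n) (hx : x ∈ Ac n (4 / 5) 22) (hkk : 1 ≤ kk n σ R kap Gs x) :
    ‖iteratedFDeriv ℝ l (fun y => s₂ y i j - s₁ y i j) x‖ ≤
      kap⁻¹ * kk n σ R kap Gs x ^ (-(ν / 2)) := by
  have h1 := h.jets i j l hl x hx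
  have hk1 := h.k1
  have hk0 : 0 < kap := by linarith
  obtain ⟨T, hT⟩ : ∃ T, T = R * (gx n σ x - Gs) := ⟨_, rfl⟩
  obtain ⟨L, hL⟩ : ∃ L, L = Real.log kap := ⟨_, rfl⟩
  have hL0 : 0 ≤ L := by rw [hL]; exact Real.log_nonneg hk1
  have hkL : kap = Real.exp L := by rw [hL, Real.exp_log hk0]
  have hR0 : 0 < R := by linarith
  have habs : R * |gx n σ x - Gs| = |T| := by rw [hT, abs_mul, abs_of_pos hR0]
  have e1 : (ν + D) * R * (gx n σ x - Gs) = (ν + D) * T := by rw [hT]; ring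
  have e2 : q * R * |gx n σ x - Gs| = q * |T| := by rw [mul_assoc, habs]
  rw [e1, e2] at h1
  have hδ := SelD.exp_ke hk0 hke
  rw [← hL] at hδ
  have hkkT : kk n σ R kap Gs x = Real.exp (L + T) := by
    unfold kk
    rw [hkL, ← Real.exp_add, hT]
  rw [hkkT] at hkk ⊢
  have hLT : 0 ≤ L + T := by
    have := Real.log_le_log one_pos hkk
    rwa [Real.log_one, Real.log_exp] at this
  have h3 : kap⁻¹ * Real.exp (L + T) ^ (-(ν / 2)) = Real.exp (-L - ν / 2 * (L + T)) := by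
    rw [hkL, ← Real.exp_neg, ← Real.exp_mul, ← Real.exp_add]
    congr 1; ring
  rw [h3]
  have h2 : ‖iteratedFDeriv ℝ l (fun y => s₂ y i j - s₁ y i j) x‖ =
      ‖iteratedFDeriv ℝ l (fun y => s₂ y i j - s₁ y i j) x‖ * Real.exp ((ν + D) * T) *
        Real.exp (-((ν + D) * T)) := by
    rw [mul_assoc, ← Real.exp_add]; simp
  rw [h2]
  have hδ0 := h.δ0
  have hks : kap ^ s = Real.exp (L * s) := by rw [hkL, ← Real.exp_mul]
  calc _ ≤ C * R ^ C * kap ^ s * δ * Real.exp (-(q * |T|)) * Real.exp (-((ν + D) * T)) :=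
        mul_le_mul_of_nonneg_right h1 (Real.exp_pos _).le
    _ ≤ kap * kap ^ s * δ * Real.exp (-(q * |T|)) * Real.exp (-((ν + D) * T)) := by gcongr
    _ = Real.exp (L + L * s + -((ν + D - q / 2) * L) + -(q * |T|) + -((ν + D) * T)) := by
        rw [hks, hδ, Real.exp_add, Real.exp_add, Real.exp_add, Real.exp_add, ← hkL]
    _ ≤ Real.exp (-L - ν / 2 * (L + T)) := by
        refine Real.exp_le_exp.2 ?_
        rcases le_total 0 T with h0 | h0
        · rw [abs_of_nonneg h0]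
          have a1 : 0 ≤ q * T := mul_nonneg (by linarith) h0
          have a2 : 0 ≤ (ν / 2 + D) * T := mul_nonneg (by linarith) h0
          have a3 : 0 ≤ (ν / 2 + D - q / 2 - 2 - s) * L := mul_nonneg (by linarith) hL0
          nlinarith
        · rw [abs_of_nonpos h0]
          have a1 : 0 ≤ (ν / 2 + D - q) * (L + T) := mul_nonneg (by linarith) hLT
          have a2 : 0 ≤ (q / 2 - 2 - s) * L := mul_nonneg (by linarith) hL0
          nlinarith

/-! ## the pointwise bound of a doubly harmonic function by its square integral -/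

theorem s10' {O : Set (V n)} (hO : IsOpen O) {s₁ s₂ : MF n} {r C M : ℝ} (hr : 0 < r)
    (hC : 0 ≤ C) (hM : 0 ≤ M) (h₁ : IntE s₁ O r C) (h₂ : IntE s₂ O r C) {K : VV n → ℝ}
    (hK : ContDiffOn ℝ ∞ K (O ×ˢ O)) {x y : V n} (hx : Metric.ball x r ⊆ O)
    (hy : Metric.ball y r ⊆ O)
    (hL₁ : ∀ z ∈ Metric.ball x r ×ˢ Metric.ball y r, Lx s₁ K z = 0)
    (hL₂ : ∀ z ∈ Metric.ball x r ×ˢ Metric.ball y r, Ly s₂ K z = 0)
    (hK2 : IntegrableOn (fun z => K z ^ 2) (Metric.ball x r ×ˢ Metric.ball y r))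
    (hI2 : ∫ z in Metric.ball x r ×ˢ Metric.ball y r, K z ^ 2 ≤ M ^ 2) :
    |K (x, y)| ≤ C ^ 2 * M := by
  set A := Metric.ball x r with hA
  set B := Metric.ball y r with hB
  have hAO : IsOpen A := Metric.isOpen_ball
  have hBO : IsOpen B := Metric.isOpen_ball
  have hvol : (volume : Measure (VV n)).restrict (A ×ˢ B) =
      ((volume : Measure (V n)).restrict A).prod ((volume : Measure (V n)).restrict B) :=
    (Measure.prod_restrict A B).symm
  have hK2' : Integrable (fun z => K z ^ 2)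
      (((volume : Measure (V n)).restrict A).prod ((volume : Measure (V n)).restrict B)) := by
    rw [← hvol]; exact hK2
  have hae : ∀ᵐ y' ∂((volume : Measure (V n)).restrict B),
      Integrable (fun x' => K (x', y') ^ 2) ((volume : Measure (V n)).restrict A) :=
    hK2'.prod_left_ae
  have hsl : ∀ y' ∈ B, ContDiffOn ℝ ∞ (fun x' => K (x', y')) A := fun y' hy' =>
    (slx hK (hy hy')).mono hx
  have hcx : x ∈ A := Metric.mem_ball_self hr
  have hcy : y ∈ B := Metric.mem_ball_self hr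
  have e1 : ∀ᵐ y' ∂((volume : Measure (V n)).restrict B),
      K (x, y') ^ 2 ≤ C ^ 2 * ∫ x' in A, K (x', y') ^ 2 := by
    filter_upwards [hae, ae_restrict_mem hBO.measurableSet] with y' hi' hy'
    have hLs : ∀ x' ∈ A, Lv s₁ (fun x' => K (x', y')) x' = 0 := by
      intro x' hx'
      rw [Lv_slx hO hK s₁ (hx hx') (hy hy')]
      exact hL₁ _ ⟨hx', hy'⟩
    have h3 := h₁ x hx (fun x' => K (x', y')) (hsl y' hy') hLs hi' none
    have h4 : |K (x, y')| ≤ C * √(∫ x' in A, K (x', y') ^ 2) := h3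
    calc K (x, y') ^ 2 = |K (x, y')| ^ 2 := (sq_abs _).symm
      _ ≤ (C * √(∫ x' in A, K (x', y') ^ 2)) ^ 2 := pow_le_pow_left₀ (abs_nonneg _) h4 2
      _ = _ := by
          rw [mul_pow, Real.sq_sqrt (integral_nonneg fun _ => sq_nonneg _)]
  have hci : Integrable (fun y' => ∫ x' in A, K (x', y') ^ 2)
      ((volume : Measure (V n)).restrict B) := hK2'.integral_prod_right
  have hsly : ContDiffOn ℝ ∞ (fun y' => K (x, y')) B := (sly hK (hx hcx)).mono hy
  have hvi : IntegrableOn (fun y' => K (x, y') ^ 2) B := by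
    refine Integrable.mono' (hci.const_mul (C ^ 2)) ?_ ?_
    · exact (hsly.continuousOn.pow 2).aestronglyMeasurable hBO.measurableSet
    · filter_upwards [e1] with y' h
      rw [Real.norm_of_nonneg (sq_nonneg _)]
      exact h
  have hv : ∫ y' in B, K (x, y') ^ 2 ≤ C ^ 2 * M ^ 2 := by
    calc ∫ y' in B, K (x, y') ^ 2 ≤ ∫ y' in B, C ^ 2 * ∫ x' in A, K (x', y') ^ 2 :=
          integral_mono_ae hvi (hci.const_mul _) e1
      _ = C ^ 2 * ∫ y' in B, ∫ x' in A, K (x', y') ^ 2 := integral_const_mul _ _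
      _ = C ^ 2 * ∫ z in A ×ˢ B, K z ^ 2 := by
          rw [hvol, integral_prod_symm _ hK2']
      _ ≤ _ := mul_le_mul_of_nonneg_left hI2 (sq_nonneg _)
  have hLs : ∀ y' ∈ B, Lv s₂ (fun y' => K (x, y')) y' = 0 := by
    intro y' hy'
    rw [Lv_sly hO hK s₂ (hx hcx) (hy hy')]
    exact hL₂ _ ⟨hcx, hy'⟩
  have h5 : |K (x, y)| ≤ C * √(∫ y' in B, K (x, y') ^ 2) :=
    h₂ y hy (fun y' => K (x, y')) hsly hLs hvi none
  refine h5.trans ?_
  have h6 : √(∫ y' in B, K (x, y') ^ 2) ≤ C * M := by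
    rw [Real.sqrt_le_left (by positivity)]
    refine hv.trans (le_of_eq ?_)
    ring
  calc C * √(∫ y' in B, K (x, y') ^ 2) ≤ C * (C * M) :=
        mul_le_mul_of_nonneg_left h6 hC
    _ = _ := by ring

end Vale.Agent.P088.HY.T4
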