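import Vale.Agent.P088.R2.H404.P5a

/-!
# P088, stage 3, row P5: the diagonal
-/

open MeasureTheory Set Filter Topology
open scoped ContDiff Matrix

noncomputable section

namespace Vale.Agent.P088.HY.T4

open Vale.Agent.P088.LR Vale.Agent.P088.HY.T3

variable {n : ℕ}

/-! ### numbers -/

theorem num_om {ν D R kap t lam A : ℝ} (hD : 0 ≤ D) (hR : 0 ≤ R) (hk : 0 < kap)
    (hlam : kap * Real.exp (R * t) ≤ lam) :
    Real.exp (-(2 * ν * R * t)) * (lam ^ (n + 4))⁻¹ *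
      (A * Real.exp ((ν + D) * R * t) * Real.exp (-((D + n + 4) * R * |t|))) ^ 2 ≤
      A ^ 2 * (kap ^ (n + 4))⁻¹ := by
  have h0 : 0 < kap * Real.exp (R * t) := by positivity
  have h1 : (lam ^ (n + 4))⁻¹ ≤ ((kap * Real.exp (R * t)) ^ (n + 4))⁻¹ := by
    gcongr
  have h2 : ((kap * Real.exp (R * t)) ^ (n + 4))⁻¹ =
      (kap ^ (n + 4))⁻¹ * Real.exp (-((n + 4) * (R * t))) := by
    rw [mul_pow, mul_inv, ← Real.exp_nat_mul, ← Real.exp_neg]
    push_cast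
    rfl
  rw [h2] at h1
  have h3 : (A * Real.exp ((ν + D) * R * t) * Real.exp (-((D + n + 4) * R * |t|))) ^ 2 =
      A ^ 2 * Real.exp (2 * ((ν + D) * R * t) - 2 * ((D + n + 4) * R * |t|)) := by
    rw [mul_pow, mul_pow, ← Real.exp_nat_mul, ← Real.exp_nat_mul, mul_assoc, ← Real.exp_add]
    push_cast
    congr 2; ring
  rw [h3]
  calc _ ≤ Real.exp (-(2 * ν * R * t)) * ((kap ^ (n + 4))⁻¹ * Real.exp (-((n + 4) * (R * t)))) *
        (A ^ 2 * Real.exp (2 * ((ν + D) * R * t) - 2 * ((D + n + 4) * R * |t|))) := by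
        gcongr
    _ = A ^ 2 * (kap ^ (n + 4))⁻¹ * Real.exp (-(2 * ν * R * t) + -((n + 4) * (R * t)) +
        (2 * ((ν + D) * R * t) - 2 * ((D + n + 4) * R * |t|))) := by
        rw [Real.exp_add, Real.exp_add]; ring
    _ ≤ A ^ 2 * (kap ^ (n + 4))⁻¹ * 1 := by
        refine mul_le_mul_of_nonneg_left (Real.exp_le_one_iff.2 ?_) (by positivity)
        have a1 : t ≤ |t| := le_abs_self t
        have a2 : -t ≤ |t| := neg_le_abs t
        have hn : (0 : ℝ) ≤ n := Nat.cast_nonneg n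
        have b1 : 2 * D * R * t ≤ 2 * D * R * |t| := by gcongr
        have b2 : (n + 4) * R * (-t) ≤ (n + 4) * R * |t| := by gcongr
        have b3 : 0 ≤ (n + 4) * R * |t| := by positivity
        nlinarith
    _ = _ := mul_one _

theorem num_h {ν D q R Rc kap t lam A h : ℝ} (hD : 0 ≤ D) (hR : 0 ≤ R) (hRc : 1 ≤ Rc)
    (hk : 1 ≤ kap) (hlam : lam = Rc + kap * Real.exp (R * t)) (hA : 0 ≤ A)
    (hq : D + n + 4 ≤ q)
    (hh : |h| * Real.exp ((ν + D) * R * t) ≤ A * Real.exp (-(q * R * |t|))) :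
    h ^ 2 * (Real.exp (2 * ν * R * t) * lam ^ (n + 4)) ≤
      A ^ 2 * (2 * Rc) ^ (n + 4) * kap ^ (n + 4) := by
  have a1 : t ≤ |t| := le_abs_self t
  have a2 : -t ≤ |t| := neg_le_abs t
  have a0 : 0 ≤ |t| := abs_nonneg t
  have hn : (0 : ℝ) ≤ n := Nat.cast_nonneg n
  have hlam1 : lam ≤ 2 * Rc * (kap * Real.exp (R * |t|)) := by
    have e1 : Real.exp (R * t) ≤ Real.exp (R * |t|) := Real.exp_le_exp.2 (by gcongr)
    have e2 : 1 ≤ Real.exp (R * |t|) := Real.one_le_exp (by positivity)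
    have e3 : 1 ≤ kap * Real.exp (R * |t|) := by nlinarith
    have e4 : kap * Real.exp (R * t) ≤ kap * Real.exp (R * |t|) := by gcongr
    rw [hlam]
    nlinarith
  have hlam0 : 0 ≤ lam := by rw [hlam]; positivity
  have h1 : lam ^ (n + 4) ≤ (2 * Rc) ^ (n + 4) * kap ^ (n + 4) *
      Real.exp ((n + 4) * (R * |t|)) := by
    calc lam ^ (n + 4) ≤ (2 * Rc * (kap * Real.exp (R * |t|))) ^ (n + 4) :=
          pow_le_pow_left₀ hlam0 hlam1 _
      _ = _ := by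
          rw [mul_pow, mul_pow kap, ← Real.exp_nat_mul]; push_cast; ring
  have h2 : |h| ≤ A * Real.exp (-(q * R * |t|) - (ν + D) * R * t) := by
    have e1 : |h| = |h| * Real.exp ((ν + D) * R * t) * Real.exp (-((ν + D) * R * t)) := by
      rw [mul_assoc, ← Real.exp_add]; simp
    rw [e1, sub_eq_add_neg, Real.exp_add, ← mul_assoc]
    exact mul_le_mul_of_nonneg_right hh (Real.exp_pos _).le
  have h3 : h ^ 2 ≤ A ^ 2 * Real.exp (2 * (-(q * R * |t|) - (ν + D) * R * t)) := by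
    rw [← sq_abs h]
    calc |h| ^ 2 ≤ (A * Real.exp (-(q * R * |t|) - (ν + D) * R * t)) ^ 2 :=
          pow_le_pow_left₀ (abs_nonneg _) h2 2
      _ = _ := by rw [mul_pow, ← Real.exp_nat_mul]; push_cast; ring
  calc h ^ 2 * (Real.exp (2 * ν * R * t) * lam ^ (n + 4))
      ≤ (A ^ 2 * Real.exp (2 * (-(q * R * |t|) - (ν + D) * R * t))) *
        (Real.exp (2 * ν * R * t) * ((2 * Rc) ^ (n + 4) * kap ^ (n + 4) *
          Real.exp ((n + 4) * (R * |t|)))) := by gcongr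
    _ = A ^ 2 * (2 * Rc) ^ (n + 4) * kap ^ (n + 4) *
        Real.exp (2 * (-(q * R * |t|) - (ν + D) * R * t) + 2 * ν * R * t +
          (n + 4) * (R * |t|)) := by
        rw [Real.exp_add, Real.exp_add]; ring
    _ ≤ A ^ 2 * (2 * Rc) ^ (n + 4) * kap ^ (n + 4) * 1 := by
        refine mul_le_mul_of_nonneg_left (Real.exp_le_one_iff.2 ?_) (by positivity)
        have b1 : 2 * D * R * (-t) ≤ 2 * D * R * |t| := by gcongr
        have b2 : (D + n + 4) * R * |t| ≤ q * R * |t| := by gcongr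
        have b3 : 0 ≤ (n + 4) * R * |t| := by positivity
        nlinarith
    _ = _ := mul_one _

/-- below the phases -/
theorem num_low {ν m s R Cs Rc kap δ lam h : ℝ} (hRc : 1 ≤ Rc)
    (hk : 1 ≤ kap) (hs : 0 ≤ s) (hCs : 1 ≤ Cs) (hR : 1 ≤ R) (hlam : 0 ≤ lam)
    (hlam1 : lam ≤ 2 * Rc) (hke : δ * kap ^ m = 1) (hm : m ≤ ν) (hh : |h| ≤ 1) :
    h ^ 2 * (kap ^ (-(2 * ν)) * lam ^ (n + 4)) ≤
      (Cs * R ^ Cs * kap ^ s * δ) ^ 2 * (2 * Rc) ^ (n + 4) * kap ^ (n + 4) := by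
  have hk0 : 0 < kap := by linarith
  have h1 : δ = kap ^ (-m) := by
    rw [Real.rpow_neg hk0.le]
    exact eq_inv_of_mul_eq_one_left hke
  have h2 : δ ^ 2 = kap ^ (-(2 * m)) := by
    rw [h1, ← Real.rpow_natCast, ← Real.rpow_mul hk0.le]
    congr 1; push_cast; ring
  have h3 : h ^ 2 ≤ 1 := by
    rw [← sq_abs]; exact pow_le_one₀ (abs_nonneg _) hh
  have h4 : kap ^ (-(2 * ν)) ≤ δ ^ 2 := by
    rw [h2]; exact Real.rpow_le_rpow_of_exponent_le hk (by linarith)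
  have h5 : lam ^ (n + 4) ≤ (2 * Rc) ^ (n + 4) := pow_le_pow_left₀ hlam hlam1 _
  have h6 : 1 ≤ (Cs * R ^ Cs * kap ^ s) ^ 2 := by
    have e1 : 1 ≤ R ^ Cs := Real.one_le_rpow hR (by linarith)
    have e2 : 1 ≤ kap ^ s := Real.one_le_rpow hk hs
    have e3 : 1 ≤ Cs * R ^ Cs * kap ^ s := by
      calc (1 : ℝ) = 1 * 1 * 1 := by ring
        _ ≤ Cs * R ^ Cs * kap ^ s := by gcongr
    exact one_le_pow₀ e3
  have h7 : (1 : ℝ) ≤ kap ^ (n + 4) := one_le_pow₀ hk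
  have hk2 : 0 < kap ^ (-(2 * ν)) := by positivity
  have hδ2 : 0 ≤ δ ^ 2 := sq_nonneg _
  calc h ^ 2 * (kap ^ (-(2 * ν)) * lam ^ (n + 4)) ≤ 1 * (δ ^ 2 * (2 * Rc) ^ (n + 4)) := by
        gcongr
    _ = 1 * δ ^ 2 * (2 * Rc) ^ (n + 4) * 1 := by ring
    _ ≤ (Cs * R ^ Cs * kap ^ s) ^ 2 * δ ^ 2 * (2 * Rc) ^ (n + 4) * kap ^ (n + 4) := by gcongr
    _ = _ := by ring

/-- Young's inequality with a weight -/
theorem young {om h X τ : ℝ} (hom : 0 < om) (hτ : 0 < τ) :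
    |h * X| ≤ τ / 2 * (h ^ 2 * om⁻¹) + 1 / (2 * τ) * (om * X ^ 2) := by
  have h1 : 0 ≤ (√τ * (|h| * (√om)⁻¹) - (√τ)⁻¹ * (√om * |X|)) ^ 2 := sq_nonneg _
  have e1 : √τ ^ 2 = τ := Real.sq_sqrt hτ.le
  have e2 : √om ^ 2 = om := Real.sq_sqrt hom.le
  have s1 : 0 < √τ := Real.sqrt_pos.2 hτ
  have s2 : 0 < √om := Real.sqrt_pos.2 hom
  have e3 : (√τ * (|h| * (√om)⁻¹) - (√τ)⁻¹ * (√om * |X|)) ^ 2 =
      τ * (h ^ 2 * om⁻¹) - 2 * (|h| * |X|) + τ⁻¹ * (om * X ^ 2) := by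
    have f1 : (√om)⁻¹ ^ 2 = om⁻¹ := by rw [inv_pow, e2]
    have f2 : (√τ)⁻¹ ^ 2 = τ⁻¹ := by rw [inv_pow, e1]
    have f3 : √τ * (√τ)⁻¹ = 1 := mul_inv_cancel₀ s1.ne'
    have f4 : (√om)⁻¹ * √om = 1 := inv_mul_cancel₀ s2.ne'
    calc (√τ * (|h| * (√om)⁻¹) - (√τ)⁻¹ * (√om * |X|)) ^ 2
        = √τ ^ 2 * (|h| ^ 2 * (√om)⁻¹ ^ 2) - 2 * (|h| * |X|) * (√τ * (√τ)⁻¹) *
          ((√om)⁻¹ * √om) + (√τ)⁻¹ ^ 2 * (√om ^ 2 * |X| ^ 2) := by ring
      _ = _ := by rw [e1, e2, f1, f2, f3, f4, sq_abs, sq_abs]; ring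
  rw [e3] at h1
  rw [abs_mul]
  have e4 : 1 / (2 * τ) = τ⁻¹ / 2 := by rw [one_div, mul_inv]; ring
  rw [e4]
  linarith

/-! ### measurability and continuity -/

theorem gx_meas (σ : ℝ) : Measurable (gx n σ) := by
  have h1 : Measurable fun x : V n => sq x := (continuous_sq).measurable
  have h2 : Measurable (iv : V n → V n) := by
    refine measurable_pi_lambda _ fun i => ?_
    exact (measurable_pi_apply i).div h1
  have h3 : Continuous (gy n σ) := by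
    unfold gy sq
    simp only [Pi.sub_apply]
    fun_prop
  exact h3.measurable.comp h2

theorem gx_cont (σ : ℝ) {a b : ℝ} (ha : 0 < a) : ContinuousOn (gx n σ) (Ac n a b) := by
  refine (gx_cd σ).continuousOn.mono fun x hx => ?_
  intro h0
  have h1 : a ≤ √(sq x) := hx.1
  rw [h0, Real.sqrt_zero] at h1
  linarith

/-- the radius of the balls about the diagonal -/
def lamf (n : ℕ) (σ C R kap Gs : ℝ) (p : V n) : ℝ := R ^ C + kk n σ R kap Gs p

/-- the weight on the diagonal -/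
def omf (n : ℕ) (σ ν C R kap Gs : ℝ) (p : V n) : ℝ :=
  Real.exp (-(2 * ν * max (R * (gx n σ p - Gs)) (-Real.log kap))) *
    (lamf n σ C R kap Gs p ^ (n + 4))⁻¹

theorem lamf_meas (σ C R kap Gs : ℝ) : Measurable (lamf n σ C R kap Gs) := by
  unfold lamf kk
  have := gx_meas (n := n) σ
  fun_prop

theorem omf_meas (σ ν C R kap Gs : ℝ) : Measurable (omf n σ ν C R kap Gs) := by
  unfold omf
  have := gx_meas (n := n) σ
  have := lamf_meas (n := n) σ C R kap Gs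
  fun_prop

theorem lamf_ge {σ C R kap Gs : ℝ} (hR : 1 ≤ R) (hC : 0 ≤ C) (hk : 0 < kap) (p : V n) :
    1 ≤ lamf n σ C R kap Gs p := by
  have h1 : 1 ≤ R ^ C := Real.one_le_rpow hR hC
  have := kk_pos (n := n) (σ := σ) (R := R) (Gs := Gs) hk p
  unfold lamf; linarith

theorem omf_pos {σ ν C R kap Gs : ℝ} (hR : 1 ≤ R) (hC : 0 ≤ C) (hk : 0 < kap) (p : V n) :
    0 < omf n σ ν C R kap Gs p := by
  have := lamf_ge (n := n) (σ := σ) (Gs := Gs) hR hC hk p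
  unfold omf; positivity

/-- the stiffness varies slowly -/
theorem slow {σ Λ C R kap Gs : ℝ} (hlip : ∀ y ∈ Ac n (4 / 5) 22, ∀ r : ℝ, 0 < r →
    (n + 1) * r ≤ 1 / 10 → ∀ x ∈ Metric.ball y r, ∀ x' ∈ Metric.ball y r,
    |gx n σ x - gx n σ x'| ≤ Λ * dist x x') (hR : 1 ≤ R) (hC : 3 ≤ C)
    (hk : 0 < kap) (hRn : 40 * (n + 1) + 8 * Λ ≤ R) (hΛ : 1 ≤ Λ) :
    R2.H238.S3.Slow (Ac n 1 12) (lamf n σ C R kap Gs) := by
  intro p hp p' hp' hd
  have hR0 : 0 < R := by linarith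
  have hn : (0 : ℝ) ≤ n := Nat.cast_nonneg n
  have hRC : R ^ (3 : ℝ) ≤ R ^ C := Real.rpow_le_rpow_of_exponent_le hR hC
  have h3 : R ^ (3 : ℝ) = R ^ 3 := by norm_cast
  rw [h3] at hRC
  have hkp := kk_pos (n := n) (σ := σ) (R := R) (Gs := Gs) hk p
  have hkp' := kk_pos (n := n) (σ := σ) (R := R) (Gs := Gs) hk p'
  have hR3 : 0 < R ^ 3 := by positivity
  have d1 : 2 / lamf n σ C R kap Gs p ≤ 2 / R ^ 3 := by
    unfold lamf; gcongr; linarith
  have d2 : 2 / lamf n σ C R kap Gs p' ≤ 2 / R ^ 3 := by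
    unfold lamf; gcongr; linarith
  have hd' : dist p p' < 4 / R ^ 3 := by
    have : 2 / R ^ 3 + 2 / R ^ 3 = 4 / R ^ 3 := by ring
    linarith
  have hR2 : 1 ≤ R ^ 2 := one_le_pow₀ hR
  have hr : 4 / R ^ 3 ≤ 1 / (10 * (n + 1)) := by
    rw [div_le_div_iff₀ hR3 (by positivity)]
    have : R ≤ R ^ 3 := by nlinarith
    nlinarith
  have hnr : (n + 1) * (1 / (10 * (n + 1))) ≤ (1 : ℝ) / 10 := by
    have : ((n : ℝ) + 1) * (1 / (10 * (n + 1))) = 1 / 10 := by field_simp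
    linarith
  have hr0 : (0 : ℝ) < 1 / (10 * (n + 1)) := by positivity
  have hp'A : p' ∈ Ac n (4 / 5) 22 := ⟨by linarith [hp'.1], by linarith [hp'.2]⟩
  have hg := hlip p' hp'A _ hr0 hnr p (Metric.mem_ball.2 (hd'.trans_le hr)) p'
    (Metric.mem_ball_self hr0)
  have hg2 : R * (gx n σ p - gx n σ p') ≤ 1 / 2 := by
    have h4 : Λ * dist p p' ≤ Λ * (4 / R ^ 3) := by gcongr
    have h5 : R * (Λ * (4 / R ^ 3)) ≤ 1 / 2 := by
      have : R * (Λ * (4 / R ^ 3)) = 4 * Λ / R ^ 2 := by field_simp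
      rw [this, div_le_div_iff₀ (by positivity) (by norm_num)]
      nlinarith
    have h6 := le_abs_self (gx n σ p - gx n σ p')
    calc R * (gx n σ p - gx n σ p') ≤ R * (Λ * (4 / R ^ 3)) := by
          gcongr; linarith
      _ ≤ _ := h5
  have hexp : Real.exp (1 / 2) ≤ 2 := by
    have h7 : Real.exp (1 / 2) ≤ 1 / (1 - 1 / 2) := by
      have := Real.one_sub_le_exp_neg (1 / 2 : ℝ)
      rw [Real.exp_neg] at this
      have h8 := Real.exp_pos (1 / 2 : ℝ)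
      rw [le_div_iff₀ (by norm_num)]
      have h9 : (1 - 1 / 2) * Real.exp (1 / 2) ≤ (Real.exp (1 / 2))⁻¹ * Real.exp (1 / 2) := by
        gcongr
      rw [inv_mul_cancel₀ h8.ne'] at h9
      linarith
    linarith
  have hkk : kk n σ R kap Gs p ≤ 2 * kk n σ R kap Gs p' := by
    have e : kk n σ R kap Gs p = kk n σ R kap Gs p' * Real.exp (R * (gx n σ p - gx n σ p')) := by
      unfold kk
      rw [mul_assoc, ← Real.exp_add]
      congr 2; ring
    rw [e, mul_comm]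
    refine mul_le_mul_of_nonneg_right ?_ hkp'.le
    exact (Real.exp_le_exp.2 hg2).trans hexp
  unfold lamf
  have : 0 < R ^ C := by positivity
  linarith

end Vale.Agent.P088.HY.T4
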