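import Vale.Agent.P088.R2.H404.P5b
import Vale.Agent.P088.R2.H16.Calc

/-!
# P088, stage 3, row P5: the pairing with the correction
-/

open MeasureTheory Set Filter Topology
open scoped ContDiff Matrix

noncomputable section

namespace Vale.Agent.P088.HY.T4

open Vale.Agent.P088.LR Vale.Agent.P088.HY.T3 Vale.Agent.P088.HY.H16

variable {n : ℕ}

theorem isOpen_Oc : IsOpen (Oc n) := isOpen_Ao _ _

theorem isOpen_OO : IsOpen (Oc n ×ˢ Oc n) := isOpen_Oc.prod isOpen_Oc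

theorem mixed_cd {K : VV n → ℝ} {O : Set (V n)} (hO : IsOpen O) (hK : ContDiffOn ℝ ∞ K (O ×ˢ O))
    (i j : Fin n) : ContinuousOn (fun x => dx i (dy j K) (x, x)) O := by
  have h1 : ContDiffOn ℝ ∞ (dx i (dy j K)) (O ×ˢ O) := by
    rw [dx_eq, dy_eq]
    exact contDiffOn_dd (hO.prod hO) _ (contDiffOn_dd (hO.prod hO) _ hK)
  exact h1.continuousOn.comp (by fun_prop) fun x hx => ⟨hx, hx⟩

/-- the sum of the densities -/
theorem int_density {B : Set (V n)} (hB : MeasurableSet B) (hBf : volume B ≠ ⊤)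
    {f : V n → ℝ} (h X : Fin n → Fin n → V n → ℝ) {om : V n → ℝ} {τ Eh Q : ℝ} (hτ : 0 < τ)
    (hf0 : ∀ x ∉ B, f x = 0) (hf : ∀ x ∈ B, |f x| ≤ ∑ i, ∑ j, |h i j x * X i j x|)
    (hom : ∀ x ∈ B, 0 < om x) (hh : ∀ i j, ∀ x ∈ B, h i j x ^ 2 * (om x)⁻¹ ≤ Eh)
    (hX : ∀ i j, IntegrableOn (fun x => om x * X i j x ^ 2) B)
    (hQ : ∀ i j, ∫ x in B, om x * X i j x ^ 2 ≤ Q) :
    |∫ x, f x| ≤ n * (n * (τ / 2 * (Eh * volume.real B) + 1 / (2 * τ) * Q)) := by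
  rw [← setIntegral_eq_integral_of_forall_compl_eq_zero hf0]
  have hfin : IsFiniteMeasure (volume.restrict B) :=
    ⟨by rw [Measure.restrict_apply_univ]; exact lt_top_iff_ne_top.2 hBf⟩
  have hij : ∀ i j, IntegrableOn (fun x => τ / 2 * Eh + 1 / (2 * τ) * (om x * X i j x ^ 2)) B :=
    fun i j => (integrable_const _).add ((hX i j).const_mul _)
  have hg : IntegrableOn (fun x => ∑ i, ∑ j, (τ / 2 * Eh + 1 / (2 * τ) * (om x * X i j x ^ 2))) B :=
    integrable_finsetSum _ fun i _ => integrable_finsetSum _ fun j _ => hij i j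
  have h1 : ∀ x ∈ B, ‖f x‖ ≤ ∑ i, ∑ j, (τ / 2 * Eh + 1 / (2 * τ) * (om x * X i j x ^ 2)) := by
    intro x hx
    rw [Real.norm_eq_abs]
    refine (hf x hx).trans (Finset.sum_le_sum fun i _ => Finset.sum_le_sum fun j _ => ?_)
    refine (young (hom x hx) hτ).trans ?_
    have := mul_le_mul_of_nonneg_left (hh i j x hx) (by positivity : (0 : ℝ) ≤ τ / 2)
    linarith
  have h2 := norm_integral_le_of_norm_le hg ((ae_restrict_iff' hB).2 (Eventually.of_forall h1))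
  rw [Real.norm_eq_abs] at h2
  refine h2.trans ?_
  rw [integral_finsetSum _ fun i _ => integrable_finsetSum _ fun j _ => hij i j]
  have h3 : ∀ i : Fin n, ∫ x in B, ∑ j, (τ / 2 * Eh + 1 / (2 * τ) * (om x * X i j x ^ 2)) ≤
      n * (τ / 2 * (Eh * volume.real B) + 1 / (2 * τ) * Q) := by
    intro i
    rw [integral_finsetSum _ fun j _ => hij i j]
    calc ∑ j : Fin n, ∫ x in B, (τ / 2 * Eh + 1 / (2 * τ) * (om x * X i j x ^ 2))
        ≤ ∑ _j : Fin n, (τ / 2 * (Eh * volume.real B) + 1 / (2 * τ) * Q) := by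
          refine Finset.sum_le_sum fun j _ => ?_
          have e1 : ∫ x in B, 1 / (2 * τ) * (om x * X i j x ^ 2) =
              1 / (2 * τ) * ∫ x in B, om x * X i j x ^ 2 := integral_const_mul _ _
          rw [integral_add (integrable_const _) ((hX i j).const_mul _), e1,
            setIntegral_const, smul_eq_mul]
          have := mul_le_mul_of_nonneg_left (hQ i j) (by positivity : (0 : ℝ) ≤ 1 / (2 * τ))
          linarith
      _ = _ := by rw [Finset.sum_const, Finset.card_univ, Fintype.card_fin, nsmul_eq_mul]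
  calc ∑ i : Fin n, ∫ x in B, ∑ j, (τ / 2 * Eh + 1 / (2 * τ) * (om x * X i j x ^ 2))
      ≤ ∑ _i : Fin n, (n : ℝ) * (τ / 2 * (Eh * volume.real B) + 1 / (2 * τ) * Q) :=
        Finset.sum_le_sum fun i _ => h3 i
    _ = _ := by rw [Finset.sum_const, Finset.card_univ, Fintype.card_fin, nsmul_eq_mul]

theorem Ac_sub_Oc {a b : ℝ} (ha : 4 / 5 < a) (hb : b < 24) : Ac n a b ⊆ Oc n := fun _ hx =>
  ⟨ha.trans_le hx.1, hx.2.trans_lt hb⟩

theorem ball_Oc {a b r : ℝ} (hr : 0 ≤ r) (ha : 4 / 5 < a - (n + 1) * r)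
    (hb : b + (n + 1) * r < 24) {p : V n} (hp : p ∈ Ac n a b) : Metric.ball p r ⊆ Oc n := by
  intro x hx
  obtain ⟨h1, h2⟩ := rt_ball hr hx
  exact ⟨by linarith [hp.1], by linarith [hp.2]⟩

theorem cl_mono {K K' : ℕ} {ε ε' : ℝ} {f : V n → ℝ} (hK : K' ≤ K) (hε : ε ≤ ε') (h : Cl K ε f) :
    Cl K' ε' f := fun l hl x => (h l (hl.trans hK) x).trans hε

theorem Nrm.mono' {K K' : ℕ} {ε ε' : ℝ} {s₁ s₂ : MF n} {G : Set (V n)} (hK : K' ≤ K)
    (hε : ε ≤ ε') (h : Nrm K ε s₁ s₂ G) : Nrm K' ε' s₁ s₂ G :=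
  ⟨h.oG, h.b1, h.sm₁, h.sm₂, h.sy₁, h.sy₂, fun i j => cl_mono hK hε (h.cl₁ i j),
    fun i j => cl_mono hK hε (h.cl₂ i j), h.of₁, h.of₂, h.dv₁, h.dv₂, h.eq⟩

theorem Nrm.diff_le {K : ℕ} {ε : ℝ} {s₁ s₂ : MF n} {G : Set (V n)} (h : Nrm K ε s₁ s₂ G)
    (x : V n) (i j : Fin n) : |s₂ x i j - s₁ x i j| ≤ 2 * ε := by
  have h1 := h.cl₁ i j 0 (Nat.zero_le _) x
  have h2 := h.cl₂ i j 0 (Nat.zero_le _) x
  rw [norm_iteratedFDeriv_zero, Real.norm_eq_abs] at h1 h2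
  have e : s₂ x i j - s₁ x i j = (s₂ x i j - (1 : Matrix (Fin n) (Fin n) ℝ) i j) -
      (s₁ x i j - (1 : Matrix (Fin n) (Fin n) ℝ) i j) := by ring
  rw [e]
  refine (abs_sub _ _).trans ?_
  linarith

/-- **S9, the pairing of `s₂ - s₁` with the correction.** -/
theorem pair_bd (hINP : RowINP) (n : ℕ) : ∃ (K : ℕ) (C8 ε8 : ℝ), 0 < C8 ∧ 0 < ε8 ∧
    ∀ (s₁ s₂ : MF n) (G : Set (V n)), Nrm K ε8 s₁ s₂ G →
    ∀ (σ Λ ν D q m s C Cs A a b c R kap Gs δ M2 : ℝ) (ps : V n) (W w K0 K1 : VV n → ℝ),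
    (∀ y ∈ Ac n (4 / 5) 22, ∀ r : ℝ, 0 < r →
      (n + 1) * r ≤ 1 / 10 → ∀ x ∈ Metric.ball y r, ∀ x' ∈ Metric.ball y r,
      |gx n σ x - gx n σ x'| ≤ Λ * dist x x') → 1 ≤ Λ → 0 ≤ D → D + n + 4 ≤ q → 3 ≤ C → 1 ≤ Cs →
    0 ≤ A → 1 ≤ R → 40 * (n + 1) + 8 * Λ ≤ R → 0 ≤ s → 0 ≤ ν → m ≤ ν → δ * kap ^ m = 1 →
    WB s₁ s₂ σ a b c C ν R kap Gs W w → SelD s₁ s₂ σ (ν + D) q 0 Cs s R kap Gs δ ps →
    ContDiff ℝ ∞ K0 →
    (∀ p ∈ Ac n 1 12, ∀ l ≤ K, ∀ z ∈ Metric.ball (p, p) (2 / (R ^ C + kk n σ R kap Gs p)),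
      ‖iteratedFDeriv ℝ l (fun z => Lx s₁ K0 z + Ly s₂ K0 z) z‖ ≤
        A * Real.exp ((ν + D) * R * (gx n σ p - Gs)) *
          Real.exp (-((D + n + 4) * R * |gx n σ p - Gs|)) * (R ^ C + kk n σ R kap Gs p) ^ l) →
    ContDiffOn ℝ ∞ K1 (Oc n ×ˢ Oc n) → (∀ z ∈ Oc n ×ˢ Oc n, Lx s₁ K1 z = -Lx s₁ K0 z) →
    (∀ z ∈ Oc n ×ˢ Oc n, Ly s₂ K1 z = -Ly s₂ K0 z) →
    IntegrableOn (fun z => Real.exp (-(2 * W z)) * K1 z ^ 2) (Oc n ×ˢ Oc n) →
    ∫ z in Oc n ×ˢ Oc n, Real.exp (-(2 * W z)) * K1 z ^ 2 ≤ M2 →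
    ∀ χ : V n → ℝ, (∀ x ∉ Ac n (998 / 1000) 12, χ x = 0) → (∀ x, |χ x| ≤ 1) →
    ∀ τ : ℝ, 0 < τ →
    |∫ x, χ x * ∑ i, ∑ j, (s₂ x i j - s₁ x i j) * dx i (dy j K1) (x, x)| ≤
      n * (n * (τ / 2 * ((Cs * R ^ Cs * kap ^ s * δ) ^ 2 * (2 * R ^ C) ^ (n + 4) *
        kap ^ (n + 4) * volume.real (Ac n 1 12)) + 1 / (2 * τ) *
          (C8 * (Real.exp (2 * C) * R ^ (2 * C) * M2 + A ^ 2 * (kap ^ (n + 4))⁻¹ *
            volume.real (Ac n 1 12))))) := by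
  obtain ⟨K, C8, ε8, hC8, hε8, hde⟩ := R2.H238.S3.diag_est hINP n
  refine ⟨K, C8, min ε8 (1 / 2), hC8, lt_min hε8 (by norm_num), ?_⟩
  intro s₁ s₂ G hN σ Λ ν D q m s C Cs A a b c R kap Gs δ M2 ps W w K0 K1 hlip hΛ hD hq hC hCs hA hR
    hRn hs hν hmν hke hWB hSel hK0 hjt hK1 hL1 hL2 hint hM2 χ hχ0 hχ1 τ hτ
  have hN8 : Nrm K ε8 s₁ s₂ G := Nrm.mono' le_rfl (min_le_left _ _) hN
  have hN1 : Nrm K (1 / 2) s₁ s₂ G := Nrm.mono' le_rfl (min_le_right _ _) hN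
  have hk1 := hSel.k1
  have hk0 : 0 < kap := by linarith
  have hR0 : 0 < R := by linarith
  have hn0 : (0 : ℝ) ≤ n := Nat.cast_nonneg n
  have hC0 : 0 ≤ C := by linarith
  obtain ⟨B, hB⟩ : ∃ B, B = Ac n 1 12 := ⟨_, rfl⟩
  have hBc : IsCompact B := by rw [hB]; exact isCompact_Ac _ _
  have hBm : MeasurableSet B := hBc.isClosed.measurableSet
  have hlam1 : ∀ p, 1 ≤ lamf n σ C R kap Gs p := fun p => lamf_ge hR hC0 hk0 p
  have hom0 : ∀ p, 0 < omf n σ ν C R kap Gs p := fun p => omf_pos hR hC0 hk0 p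
  have hRC : R ≤ R ^ C := by
    calc R = R ^ (1 : ℝ) := (Real.rpow_one R).symm
      _ ≤ R ^ C := Real.rpow_le_rpow_of_exponent_le hR (by linarith)
  have hlamR : ∀ p, 2 / lamf n σ C R kap Gs p ≤ 2 / R := by
    intro p
    have := kk_pos (n := n) (σ := σ) (R := R) (Gs := Gs) hk0 p
    unfold lamf
    gcongr
    linarith
  have hr2 : (n + 1) * (2 / R) ≤ 1 / 20 := by
    rw [mul_div_assoc', div_le_iff₀ hR0]
    nlinarith
  have hsub : ∀ p ∈ B, Metric.ball (p, p) (2 / lamf n σ C R kap Gs p) ⊆ Oc n ×ˢ Oc n := by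
    intro p hp z hz
    rw [hB] at hp
    have h0 : 0 ≤ 2 / lamf n σ C R kap Gs p := by
      have := hlam1 p; positivity
    have h1 : (n + 1) * (2 / lamf n σ C R kap Gs p) ≤ 1 / 20 :=
      (mul_le_mul_of_nonneg_left (hlamR p) (by positivity)).trans hr2
    have hb := ball_Oc (a := 1) (b := 12) h0 (by linarith) (by linarith) hp
    obtain ⟨z1, z2⟩ := R2.H238.S3.mem_bpp.1 hz
    exact ⟨hb z1, hb z2⟩
  -- the right side
  obtain ⟨F, hF⟩ : ∃ F : VV n → ℝ, F = fun z => -(Lx s₁ K0 z + Ly s₂ K0 z) := ⟨_, rfl⟩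
  have hFs : ContDiff ℝ ∞ F := by
    rw [hF]
    refine ContDiff.neg (ContDiff.add ?_ ?_)
    · exact contDiffOn_univ.1 (contDiffOn_Lx isOpen_univ hN.sm₁ hK0.contDiffOn)
    · exact contDiffOn_univ.1 (contDiffOn_Ly isOpen_univ hN.sm₂ hK0.contDiffOn)
  obtain ⟨Mf, hMf⟩ : ∃ Mf : V n → ℝ, Mf = fun p => A * Real.exp ((ν + D) * R * (gx n σ p - Gs)) *
      Real.exp (-((D + n + 4) * R * |gx n σ p - Gs|)) := ⟨_, rfl⟩
  have hFj : ∀ p ∈ B, ∀ l ≤ K, ∀ z ∈ Metric.ball (p, p) (2 / lamf n σ C R kap Gs p),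
      ‖iteratedFDeriv ℝ l F z‖ ≤ Mf p * lamf n σ C R kap Gs p ^ l := by
    intro p hp l hl z hz
    have h1 := hjt p (by rw [← hB]; exact hp) l hl z hz
    have h2 : F = -fun z => (Lx s₁ K0 z + Ly s₂ K0 z) := by rw [hF]; rfl
    rw [h2, iteratedFDeriv_neg_apply, norm_neg, hMf]
    exact h1
  have hRe : Real.exp (2 * C) * R ^ (2 * C) = Real.exp (2 * (C * (1 + Real.log R))) := by
    rw [Real.rpow_def_of_pos hR0, ← Real.exp_add]
    congr 1
    ring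
  obtain ⟨g, hg⟩ : ∃ g : VV n → ℝ, g = fun z => Real.exp (2 * C) * R ^ (2 * C) *
      (Real.exp (-(2 * W z)) * K1 z ^ 2) := ⟨_, rfl⟩
  have hgi : IntegrableOn g (Oc n ×ˢ Oc n) := by rw [hg]; exact hint.const_mul _
  have hg0 : ∀ z ∈ Oc n ×ˢ Oc n, 0 ≤ g z := fun z _ => by rw [hg]; positivity
  have hgk : ∀ p ∈ B, ∀ z ∈ Metric.ball (p, p) (2 / lamf n σ C R kap Gs p),
      omf n σ ν C R kap Gs p * lamf n σ C R kap Gs p ^ (n + 4) * K1 z ^ 2 ≤ g z := by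
    intro p hp z hz
    have hpA : p ∈ Ac n (99 / 100) 15 := by
      rw [hB] at hp; exact ⟨by linarith [hp.1], by linarith [hp.2]⟩
    have h1 := hWB.W2 p hpA z hz
    have h2 : omf n σ ν C R kap Gs p * lamf n σ C R kap Gs p ^ (n + 4) =
        Real.exp (-(2 * ν * max (R * (gx n σ p - Gs)) (-Real.log kap))) := by
      unfold omf
      have : lamf n σ C R kap Gs p ^ (n + 4) ≠ 0 := by
        have := hlam1 p; positivity
      field_simp
    rw [h2, hg]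
    simp only
    rw [hRe, ← mul_assoc, ← Real.exp_add]
    refine mul_le_mul_of_nonneg_right (Real.exp_le_exp.2 ?_) (sq_nonneg _)
    linarith
  have homM : ∀ p, omf n σ ν C R kap Gs p * Mf p ^ 2 ≤ A ^ 2 * (kap ^ (n + 4))⁻¹ := by
    intro p
    have hl0 : 0 < lamf n σ C R kap Gs p := by linarith [hlam1 p]
    have h1 : omf n σ ν C R kap Gs p ≤ Real.exp (-(2 * ν * R * (gx n σ p - Gs))) *
        (lamf n σ C R kap Gs p ^ (n + 4))⁻¹ := by
      unfold omf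
      refine mul_le_mul_of_nonneg_right (Real.exp_le_exp.2 ?_) (by positivity)
      have := mul_le_mul_of_nonneg_left (le_max_left (R * (gx n σ p - Gs)) (-Real.log kap))
        (by positivity : 0 ≤ 2 * ν)
      linarith
    refine (mul_le_mul_of_nonneg_right h1 (sq_nonneg _)).trans ?_
    rw [hMf]
    refine num_om (n := n) (ν := ν) (D := D) (t := gx n σ p - Gs) hD hR0.le hk0 ?_
    have : 0 < R ^ C := by positivity
    unfold lamf kk
    linarith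
  have hMfm : Measurable Mf := by
    rw [hMf]
    have := gx_meas (n := n) σ
    fun_prop
  have hBfin : IsFiniteMeasure (volume.restrict B) :=
    ⟨by rw [Measure.restrict_apply_univ]; exact hBc.measure_lt_top⟩
  have hMi : IntegrableOn (fun p => omf n σ ν C R kap Gs p * Mf p ^ 2) B := by
    refine Integrable.of_bound (((omf_meas σ ν C R kap Gs).mul
      (hMfm.pow_const 2)).aestronglyMeasurable) (A ^ 2 * (kap ^ (n + 4))⁻¹)
      (Eventually.of_forall fun p => ?_)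
    rw [Real.norm_eq_abs, abs_of_nonneg (by have := hom0 p; positivity)]
    exact homM p
  have key := hde s₁ s₂ hN.sm₁ hN.sm₂ hN8.cl₁ hN8.cl₂ B (Oc n ×ˢ Oc n) (lamf n σ C R kap Gs)
    (omf n σ ν C R kap Gs) Mf K1 F g hBm isOpen_OO (lamf_meas σ C R kap Gs)
    (fun p _ => hlam1 p) (by rw [hB]; exact slow hlip hR hC hk0 hRn hΛ) hsub hK1
    hFs.contDiffOn (fun z hz => by rw [hL1 z hz, hL2 z hz, hF]; ring) hFj
    (omf_meas σ ν C R kap Gs) (fun p _ => (hom0 p).le) hgi hg0 hgk hMi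
  have hQ : ∀ i j, ∫ p in B, omf n σ ν C R kap Gs p * dx i (dy j K1) (p, p) ^ 2 ≤
      C8 * (Real.exp (2 * C) * R ^ (2 * C) * M2 + A ^ 2 * (kap ^ (n + 4))⁻¹ * volume.real B) := by
    intro i j
    refine (key i j).2.trans (mul_le_mul_of_nonneg_left (add_le_add ?_ ?_) hC8.le)
    · rw [hg, integral_const_mul]
      exact mul_le_mul_of_nonneg_left hM2 (by positivity)
    · calc ∫ p in B, omf n σ ν C R kap Gs p * Mf p ^ 2
          ≤ ∫ _p in B, A ^ 2 * (kap ^ (n + 4))⁻¹ :=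
            integral_mono hMi (integrable_const _) homM
        _ = _ := by rw [setIntegral_const, smul_eq_mul, mul_comm]
  rw [← hB]
  refine int_density hBm hBc.measure_lt_top.ne (fun i j x => s₂ x i j - s₁ x i j)
    (fun i j x => dx i (dy j K1) (x, x)) (om := omf n σ ν C R kap Gs) hτ ?_ ?_
    (fun x _ => hom0 x) ?_ (fun i j => (key i j).1) hQ
  · intro x hx
    by_cases h1 : x ∈ Ac n (998 / 1000) 12
    · have h2 : √(sq x) < 1 := by
        by_contra hcon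
        push Not at hcon
        exact hx (by rw [hB]; exact ⟨hcon, h1.2⟩)
      have h3 : s₂ x = s₁ x := hN.eq x ⟨hN.b1 ((mem_Eb0 one_pos).2 h2),
        (mem_Eb0 (by norm_num)).2 (by linarith)⟩
      rw [h3]
      simp
    · rw [hχ0 x h1, zero_mul]
  · intro x _
    rw [abs_mul]
    calc |χ x| * |∑ i, ∑ j, (s₂ x i j - s₁ x i j) * dx i (dy j K1) (x, x)|
        ≤ 1 * |∑ i, ∑ j, (s₂ x i j - s₁ x i j) * dx i (dy j K1) (x, x)| :=
          mul_le_mul_of_nonneg_right (hχ1 x) (abs_nonneg _)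
      _ ≤ _ := by
          rw [one_mul]
          refine (Finset.abs_sum_le_sum_abs _ _).trans (Finset.sum_le_sum fun i _ => ?_)
          exact Finset.abs_sum_le_sum_abs _ _
  · intro i j x hx
    have hxA : x ∈ Ac n (4 / 5) 22 := by
      rw [hB] at hx; exact ⟨by linarith [hx.1], by linarith [hx.2]⟩
    have h1 := hSel.jets i j 0 le_rfl x hxA
    rw [norm_iteratedFDeriv_zero, Real.norm_eq_abs] at h1
    have hδ0 := hSel.δ0
    have hRC1 : 1 ≤ R ^ C := Real.one_le_rpow hR hC0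
    rcases le_total (-Real.log kap) (R * (gx n σ x - Gs)) with hc | hc
    · have h2 := num_h (n := n) (ν := ν) (D := D) (q := q) (R := R) (Rc := R ^ C) (kap := kap)
        (t := gx n σ x - Gs) (lam := lamf n σ C R kap Gs x) (A := Cs * R ^ Cs * kap ^ s * δ)
        (h := s₂ x i j - s₁ x i j) hD hR0.le hRC1 hk1 rfl (by positivity) hq h1
      have h3 : (omf n σ ν C R kap Gs x)⁻¹ = Real.exp (2 * ν * R * (gx n σ x - Gs)) *
          lamf n σ C R kap Gs x ^ (n + 4) := by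
        unfold omf
        rw [mul_inv, inv_inv, ← Real.exp_neg, neg_neg, max_eq_left hc]
        congr 2; ring
      rw [h3]
      exact h2
    · have hkk1 : kk n σ R kap Gs x ≤ 1 := by
        unfold kk
        calc kap * Real.exp (R * (gx n σ x - Gs)) ≤ kap * Real.exp (-Real.log kap) := by gcongr
          _ = 1 := by rw [Real.exp_neg, Real.exp_log hk0, mul_inv_cancel₀ hk0.ne']
      have h3 : (omf n σ ν C R kap Gs x)⁻¹ = kap ^ (-(2 * ν)) *
          lamf n σ C R kap Gs x ^ (n + 4) := by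
        unfold omf
        rw [mul_inv, inv_inv, ← Real.exp_neg, neg_neg, max_eq_right hc, Real.rpow_def_of_pos hk0]
        congr 2; ring
      rw [h3]
      refine num_low hRC1 hk1 hs hCs hR (by linarith [hlam1 x]) ?_ hke hmν
        ((Nrm.diff_le hN1 x i j).trans (by norm_num))
      unfold lamf
      linarith

end Vale.Agent.P088.HY.T4
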