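import Vale.Agent.P088.R2.H404.P5c

/-!
# P088, stage 3, row P5: far bound, numbers
-/

open MeasureTheory Set Filter Topology
open scoped ContDiff Matrix

noncomputable section

namespace Vale.Agent.P088.HY.T4

open Vale.Agent.P088.LR Vale.Agent.P088.HY.T3 Vale.Agent.P088.HY.H16

variable {n : ℕ}

/-! ### sums of kernels -/

theorem dd_add' {U : Set (VV n)} (hU : IsOpen U) (v : VV n) {f g : VV n → ℝ}
    (hf : ContDiffOn ℝ ∞ f U) (hg : ContDiffOn ℝ ∞ g U) :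
    ∀ z ∈ U, dd v (fun z => f z + g z) z = dd v f z + dd v g z := by
  intro z hz
  have h1 : DifferentiableAt ℝ f z :=
    (hf.contDiffAt (hU.mem_nhds hz)).differentiableAt (by simp)
  have h2 : DifferentiableAt ℝ g z :=
    (hg.contDiffAt (hU.mem_nhds hz)).differentiableAt (by simp)
  unfold dd
  rw [fderiv_fun_add h1 h2]
  rfl

theorem dd2_add {U : Set (VV n)} (hU : IsOpen U) (v w : VV n) {f g : VV n → ℝ}
    (hf : ContDiffOn ℝ ∞ f U) (hg : ContDiffOn ℝ ∞ g U) (z : VV n) (hz : z ∈ U) :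
    dd v (dd w fun z => f z + g z) z = dd v (dd w f) z + dd v (dd w g) z := by
  rw [dd_congr hU v (dd_add' hU w hf hg) z hz,
    dd_add' hU v (contDiffOn_dd hU w hf) (contDiffOn_dd hU w hg) z hz]

theorem Lx_add' {U : Set (VV n)} (hU : IsOpen U) (s : MF n) {f g : VV n → ℝ}
    (hf : ContDiffOn ℝ ∞ f U) (hg : ContDiffOn ℝ ∞ g U) :
    ∀ z ∈ U, Lx s (fun z => f z + g z) z = Lx s f z + Lx s g z := by
  intro z hz
  unfold Lx
  simp only [dx_eq]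
  simp only [← Finset.sum_add_distrib]
  refine Finset.sum_congr rfl fun i _ => Finset.sum_congr rfl fun j _ => ?_
  rw [dd2_add hU _ _ hf hg z hz]
  ring

theorem Ly_add' {U : Set (VV n)} (hU : IsOpen U) (s : MF n) {f g : VV n → ℝ}
    (hf : ContDiffOn ℝ ∞ f U) (hg : ContDiffOn ℝ ∞ g U) :
    ∀ z ∈ U, Ly s (fun z => f z + g z) z = Ly s f z + Ly s g z := by
  intro z hz
  unfold Ly
  simp only [dy_eq]
  simp only [← Finset.sum_add_distrib]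
  refine Finset.sum_congr rfl fun i _ => Finset.sum_congr rfl fun j _ => ?_
  rw [dd2_add hU _ _ hf hg z hz]
  ring

theorem mixed_add {U : Set (VV n)} (hU : IsOpen U) {f g : VV n → ℝ}
    (hf : ContDiffOn ℝ ∞ f U) (hg : ContDiffOn ℝ ∞ g U) (i j : Fin n) :
    ∀ z ∈ U, dx i (dy j fun z => f z + g z) z = dx i (dy j f) z + dx i (dy j g) z := by
  intro z hz
  simp only [dx_eq, dy_eq]
  exact dd2_add hU _ _ hf hg z hz

/-! ### the far bound -/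

theorem vol_ball_prod {r : ℝ} (hr : 0 < r) (hr1 : r ≤ 1 / 2) (x y : V n) :
    volume (Metric.ball x r ×ˢ Metric.ball y r) ≤ 1 := by
  have h1 : ∀ x : V n, volume (Metric.ball x r) ≤ 1 := by
    intro x
    rw [Real.volume_pi_ball x hr]
    have : (2 * r) ^ Fintype.card (Fin n) ≤ 1 := pow_le_one₀ (by positivity) (by linarith)
    calc ENNReal.ofReal ((2 * r) ^ Fintype.card (Fin n)) ≤ ENNReal.ofReal 1 :=
          ENNReal.ofReal_le_ofReal this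
      _ = 1 := ENNReal.ofReal_one
  rw [Measure.volume_eq_prod, Measure.prod_prod]
  calc volume (Metric.ball x r) * volume (Metric.ball y r) ≤ 1 * 1 :=
        mul_le_mul' (h1 x) (h1 y)
    _ = 1 := one_mul 1

theorem far_core {s₁ s₂ : MF n} {r Ci E0 w₀ M2 : ℝ} (hr : 0 < r) (hr1 : r ≤ 1 / 2) (hCi : 0 ≤ Ci)
    (h₁ : IntE s₁ (Oc n) r Ci) (h₂ : IntE s₂ (Oc n) r Ci) {K0 K1 W : VV n → ℝ}
    (hK0 : ContDiff ℝ ∞ K0) (hK1 : ContDiffOn ℝ ∞ K1 (Oc n ×ˢ Oc n))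
    (hL1 : ∀ z ∈ Oc n ×ˢ Oc n, Lx s₁ K1 z = -Lx s₁ K0 z)
    (hL2 : ∀ z ∈ Oc n ×ˢ Oc n, Ly s₂ K1 z = -Ly s₂ K0 z)
    (hint : IntegrableOn (fun z => Real.exp (-(2 * W z)) * K1 z ^ 2) (Oc n ×ˢ Oc n))
    (hM2 : ∫ z in Oc n ×ˢ Oc n, Real.exp (-(2 * W z)) * K1 z ^ 2 ≤ M2) {x y : V n}
    (hx : Metric.ball x r ⊆ Oc n) (hy : Metric.ball y r ⊆ Oc n)
    (hW : ∀ z ∈ Metric.ball x r ×ˢ Metric.ball y r, W z ≤ w₀)
    (hE : ∀ z ∈ Metric.ball x r ×ˢ Metric.ball y r, |K0 z| ≤ E0) :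
    |K0 (x, y) + K1 (x, y)| ≤ Ci ^ 2 * √(2 * (E0 ^ 2 + Real.exp (2 * w₀) * M2)) := by
  set A := Metric.ball x r with hA
  set B := Metric.ball y r with hB
  have hAB : A ×ˢ B ⊆ Oc n ×ˢ Oc n := prod_mono hx hy
  have hm : MeasurableSet (A ×ˢ B) :=
    Metric.isOpen_ball.measurableSet.prod Metric.isOpen_ball.measurableSet
  have hK : ContDiffOn ℝ ∞ (fun z => K0 z + K1 z) (Oc n ×ˢ Oc n) := hK0.contDiffOn.add hK1
  have hvol : volume (A ×ˢ B) ≤ 1 := vol_ball_prod hr hr1 x y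
  have hvr : volume.real (A ×ˢ B) ≤ 1 := by
    rw [Measure.real]
    exact ENNReal.toReal_le_of_le_ofReal zero_le_one (by rw [ENNReal.ofReal_one]; exact hvol)
  have hfin : IsFiniteMeasure (volume.restrict (A ×ˢ B)) :=
    ⟨by rw [Measure.restrict_apply_univ]; exact hvol.trans_lt ENNReal.one_lt_top⟩
  have hi1 : IntegrableOn (fun z => Real.exp (-(2 * W z)) * K1 z ^ 2) (A ×ˢ B) :=
    hint.mono_set hAB
  have hpt : ∀ z ∈ A ×ˢ B, (K0 z + K1 z) ^ 2 ≤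
      2 * E0 ^ 2 + 2 * (Real.exp (2 * w₀) * (Real.exp (-(2 * W z)) * K1 z ^ 2)) := by
    intro z hz
    have e1 := hW z hz
    have e2 : 1 ≤ Real.exp (2 * w₀) * Real.exp (-(2 * W z)) := by
      rw [← Real.exp_add]; exact Real.one_le_exp (by linarith)
    have e3 : K0 z ^ 2 ≤ E0 ^ 2 := by
      rw [← sq_abs]; exact pow_le_pow_left₀ (abs_nonneg _) (hE z hz) 2
    have e4 : K1 z ^ 2 ≤ Real.exp (2 * w₀) * (Real.exp (-(2 * W z)) * K1 z ^ 2) := by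
      have := mul_le_mul_of_nonneg_right e2 (sq_nonneg (K1 z))
      linarith
    nlinarith [sq_nonneg (K0 z - K1 z)]
  have hgi : IntegrableOn (fun z => 2 * E0 ^ 2 +
      2 * (Real.exp (2 * w₀) * (Real.exp (-(2 * W z)) * K1 z ^ 2))) (A ×ˢ B) :=
    (integrable_const _).add ((hi1.const_mul _).const_mul _)
  have hK2 : IntegrableOn (fun z => (K0 z + K1 z) ^ 2) (A ×ˢ B) := by
    refine Integrable.mono' hgi (((hK.continuousOn.mono hAB).pow 2).aestronglyMeasurable hm)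
      ((ae_restrict_iff' hm).2 (Eventually.of_forall fun z hz => ?_))
    rw [Real.norm_of_nonneg (sq_nonneg _)]
    exact hpt z hz
  have h0 : 0 ≤ 2 * (E0 ^ 2 + Real.exp (2 * w₀) * M2) := by
    have : 0 ≤ M2 := le_trans (integral_nonneg fun z => by positivity) hM2
    positivity
  refine s10' isOpen_Oc hr hCi (Real.sqrt_nonneg _) h₁ h₂ hK hx hy ?_ ?_ hK2 ?_
  · intro z hz
    rw [Lx_add' isOpen_OO s₁ hK0.contDiffOn hK1 z (hAB hz), hL1 z (hAB hz)]; ring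
  · intro z hz
    rw [Ly_add' isOpen_OO s₂ hK0.contDiffOn hK1 z (hAB hz), hL2 z (hAB hz)]; ring
  · rw [Real.sq_sqrt h0]
    calc ∫ z in A ×ˢ B, (K0 z + K1 z) ^ 2
        ≤ ∫ z in A ×ˢ B, (2 * E0 ^ 2 +
          2 * (Real.exp (2 * w₀) * (Real.exp (-(2 * W z)) * K1 z ^ 2))) :=
          setIntegral_mono_on hK2 hgi hm hpt
      _ = volume.real (A ×ˢ B) * (2 * E0 ^ 2) + 2 * (Real.exp (2 * w₀) *
          ∫ z in A ×ˢ B, Real.exp (-(2 * W z)) * K1 z ^ 2) := by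
          rw [integral_add (integrable_const _) ((hi1.const_mul _).const_mul _)]
          have e1 : ∫ z in A ×ˢ B, 2 * (Real.exp (2 * w₀) * (Real.exp (-(2 * W z)) * K1 z ^ 2)) =
            2 * (Real.exp (2 * w₀) * ∫ z in A ×ˢ B, Real.exp (-(2 * W z)) * K1 z ^ 2) := by
            rw [integral_const_mul, integral_const_mul]
          rw [e1, setIntegral_const, smul_eq_mul]
      _ ≤ 1 * (2 * E0 ^ 2) + 2 * (Real.exp (2 * w₀) * M2) := by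
          refine add_le_add (mul_le_mul_of_nonneg_right hvr (by positivity)) ?_
          refine mul_le_mul_of_nonneg_left (mul_le_mul_of_nonneg_left ?_ (Real.exp_pos _).le)
            (by norm_num)
          refine le_trans ?_ hM2
          exact setIntegral_mono_set hint (Eventually.of_forall fun z => by positivity)
            hAB.eventuallyLE
      _ = _ := by ring

/-! ### numbers -/

/-- the pairing term -/
theorem num_T1 {s a Cs C C4 C8 v R kap δ : ℝ} (hs : 0 ≤ s) (ha : a ≤ 4)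
    (hCs : 0 ≤ Cs) (hC : 0 ≤ C) (hC4 : 0 ≤ C4) (hC8 : 0 ≤ C8) (hv : 0 ≤ v) :
    ∃ Z : ℝ, 0 ≤ Z ∧ ∀ R kap δ : ℝ, 1 ≤ R → 1 ≤ kap → 0 < δ →
    n * (n * (kap ^ (-(n + 4) - a / 2 : ℝ) / 2 * ((Cs * R ^ Cs * kap ^ s * δ) ^ 2 *
      (2 * R ^ C) ^ (n + 4) * kap ^ (n + 4) * v) + 1 / (2 * kap ^ (-(n + 4) - a / 2 : ℝ)) *
        (C8 * (Real.exp (2 * C) * R ^ (2 * C) * (C4 * R ^ C4 * kap ^ (4 * s) * δ ^ 2 *
          kap ^ (-(n + 4 + a) : ℝ)) + (C4 * R ^ C4 * kap ^ (2 * s - 2) * δ) ^ 2 *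
            (kap ^ (n + 4))⁻¹ * v)))) ≤ Z * R ^ Z * δ ^ 2 * kap ^ (4 * s - a / 2) := by
  obtain ⟨Z1, hZ1⟩ : ∃ Z1 : ℝ, Z1 = n * (n * (v / 2 * (Cs ^ 2 * 2 ^ (n + 4)) +
      C8 * Real.exp (2 * C) * C4 / 2 + C8 * C4 ^ 2 * v / 2)) := ⟨_, rfl⟩
  have hn : (0 : ℝ) ≤ n := Nat.cast_nonneg n
  have hZ10 : 0 ≤ Z1 := by rw [hZ1]; positivity
  obtain ⟨Z, hZ⟩ : ∃ Z : ℝ, Z = Z1 + (2 * Cs + C * (n + 4)) + 2 * C4 + 2 * C := ⟨_, rfl⟩
  have hCn : 0 ≤ C * (n + 4) := by positivity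
  refine ⟨Z, by rw [hZ]; positivity, fun R kap δ hR hk hδ => ?_⟩
  have hk0 : 0 < kap := by linarith
  have hR0 : 0 < R := by linarith
  obtain ⟨P, hP⟩ : ∃ P : ℝ, P = R ^ Z * (δ ^ 2 * kap ^ (4 * s - a / 2)) := ⟨_, rfl⟩
  have hk4 : 0 < kap ^ (4 * s - a / 2) := by positivity
  have hP0 : 0 ≤ P := by rw [hP]; positivity
  have hkn : (kap : ℝ) ^ (n + 4) = kap ^ ((n : ℝ) + 4) := by
    rw [← Real.rpow_natCast]; push_cast; rfl
  have hRn : (2 * R ^ C) ^ (n + 4) = 2 ^ (n + 4) * R ^ (C * (n + 4)) := by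
    rw [mul_pow, ← Real.rpow_natCast (R ^ C), ← Real.rpow_mul hR0.le]
    push_cast; rfl
  -- (i)
  have t1 : kap ^ (-(n + 4) - a / 2 : ℝ) / 2 * ((Cs * R ^ Cs * kap ^ s * δ) ^ 2 *
      (2 * R ^ C) ^ (n + 4) * kap ^ (n + 4) * v) ≤ v / 2 * (Cs ^ 2 * 2 ^ (n + 4)) * P := by
    have e1 : kap ^ (-(n + 4) - a / 2 : ℝ) / 2 * ((Cs * R ^ Cs * kap ^ s * δ) ^ 2 *
      (2 * R ^ C) ^ (n + 4) * kap ^ (n + 4) * v) = v / 2 * (Cs ^ 2 * 2 ^ (n + 4)) *
        ((R ^ Cs * R ^ Cs * R ^ (C * (n + 4))) * (δ ^ 2 *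
          (kap ^ (-(n + 4) - a / 2 : ℝ) * kap ^ s * kap ^ s * kap ^ ((n : ℝ) + 4)))) := by
      rw [hRn, hkn]; ring
    rw [e1, ← Real.rpow_add hR0, ← Real.rpow_add hR0, ← Real.rpow_add hk0, ← Real.rpow_add hk0,
      ← Real.rpow_add hk0, hP]
    refine mul_le_mul_of_nonneg_left ?_ (by positivity)
    refine mul_le_mul ?_ (mul_le_mul_of_nonneg_left ?_ (sq_nonneg _)) (by positivity)
      (by positivity)
    · exact Real.rpow_le_rpow_of_exponent_le hR (by rw [hZ]; linarith)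
    · exact Real.rpow_le_rpow_of_exponent_le hk (by linarith)
  -- (ii)
  have t2 : 1 / (2 * kap ^ (-(n + 4) - a / 2 : ℝ)) * (C8 * (Real.exp (2 * C) * R ^ (2 * C) *
      (C4 * R ^ C4 * kap ^ (4 * s) * δ ^ 2 * kap ^ (-(n + 4 + a) : ℝ)))) ≤
      C8 * Real.exp (2 * C) * C4 / 2 * P := by
    have e0 : 1 / (2 * kap ^ (-(n + 4) - a / 2 : ℝ)) = kap ^ ((n : ℝ) + 4 + a / 2) / 2 := by
      rw [show (-(n + 4) - a / 2 : ℝ) = -((n : ℝ) + 4 + a / 2) by ring, Real.rpow_neg hk0.le]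
      field_simp
    rw [e0]
    have e1 : kap ^ ((n : ℝ) + 4 + a / 2) / 2 * (C8 * (Real.exp (2 * C) * R ^ (2 * C) *
      (C4 * R ^ C4 * kap ^ (4 * s) * δ ^ 2 * kap ^ (-(n + 4 + a) : ℝ)))) =
      C8 * Real.exp (2 * C) * C4 / 2 * ((R ^ (2 * C) * R ^ C4) * (δ ^ 2 * (kap ^ ((n : ℝ) + 4 + a / 2) *
        kap ^ (4 * s) * kap ^ (-(n + 4 + a) : ℝ)))) := by ring
    rw [e1, ← Real.rpow_add hR0, ← Real.rpow_add hk0, ← Real.rpow_add hk0, hP]
    refine mul_le_mul_of_nonneg_left ?_ (by positivity)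
    refine mul_le_mul ?_ (mul_le_mul_of_nonneg_left ?_ (sq_nonneg _)) (by positivity)
      (by positivity)
    · exact Real.rpow_le_rpow_of_exponent_le hR (by rw [hZ]; linarith)
    · exact Real.rpow_le_rpow_of_exponent_le hk (by linarith)
  -- (iii)
  have t3 : 1 / (2 * kap ^ (-(n + 4) - a / 2 : ℝ)) * (C8 *
      ((C4 * R ^ C4 * kap ^ (2 * s - 2) * δ) ^ 2 * (kap ^ (n + 4))⁻¹ * v)) ≤
      C8 * C4 ^ 2 * v / 2 * P := by
    have e0 : 1 / (2 * kap ^ (-(n + 4) - a / 2 : ℝ)) = kap ^ ((n : ℝ) + 4 + a / 2) / 2 := by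
      rw [show (-(n + 4) - a / 2 : ℝ) = -((n : ℝ) + 4 + a / 2) by ring, Real.rpow_neg hk0.le]
      field_simp
    rw [e0]
    have e1 : kap ^ ((n : ℝ) + 4 + a / 2) / 2 * (C8 *
      ((C4 * R ^ C4 * kap ^ (2 * s - 2) * δ) ^ 2 * (kap ^ (n + 4))⁻¹ * v)) =
      C8 * C4 ^ 2 * v / 2 * ((R ^ C4 * R ^ C4) * (δ ^ 2 * (kap ^ ((n : ℝ) + 4 + a / 2) *
        kap ^ (2 * s - 2) * kap ^ (2 * s - 2) * kap ^ (-((n : ℝ) + 4))))) := by
      rw [hkn, Real.rpow_neg hk0.le ((n : ℝ) + 4)]; ring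
    rw [e1, ← Real.rpow_add hR0, ← Real.rpow_add hk0, ← Real.rpow_add hk0, ← Real.rpow_add hk0, hP]
    refine mul_le_mul_of_nonneg_left ?_ (by positivity)
    refine mul_le_mul ?_ (mul_le_mul_of_nonneg_left ?_ (sq_nonneg _)) (by positivity)
      (by positivity)
    · exact Real.rpow_le_rpow_of_exponent_le hR (by rw [hZ]; linarith)
    · exact Real.rpow_le_rpow_of_exponent_le hk (by linarith)
  have hZ1Z : Z1 ≤ Z := by rw [hZ]; linarith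
  calc _ = n * (n * (kap ^ (-(n + 4) - a / 2 : ℝ) / 2 * ((Cs * R ^ Cs * kap ^ s * δ) ^ 2 *
      (2 * R ^ C) ^ (n + 4) * kap ^ (n + 4) * v) +
      1 / (2 * kap ^ (-(n + 4) - a / 2 : ℝ)) * (C8 * (Real.exp (2 * C) * R ^ (2 * C) *
      (C4 * R ^ C4 * kap ^ (4 * s) * δ ^ 2 * kap ^ (-(n + 4 + a) : ℝ)))) +
      1 / (2 * kap ^ (-(n + 4) - a / 2 : ℝ)) * (C8 *
      ((C4 * R ^ C4 * kap ^ (2 * s - 2) * δ) ^ 2 * (kap ^ (n + 4))⁻¹ * v)))) := by ring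
    _ ≤ n * (n * (v / 2 * (Cs ^ 2 * 2 ^ (n + 4)) * P + C8 * Real.exp (2 * C) * C4 / 2 * P +
        C8 * C4 ^ 2 * v / 2 * P)) := by gcongr
    _ = Z1 * P := by rw [hZ1]; ring
    _ ≤ Z * P := mul_le_mul_of_nonneg_right hZ1Z hP0
    _ = _ := by rw [hP]; ring

/-- the contradiction -/
theorem final_num {X a c₁ N : ℝ} (hX : 0 ≤ X) (ha : 0 < a) (hc : 0 < c₁) (hN : 0 < N) :
    ∃ C₀ R₀ η : ℝ, 0 < η ∧ ∀ R kap δ : ℝ, R₀ ≤ R → 1 ≤ R → R ^ C₀ ≤ kap →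
      kap ≤ Real.exp (η * R) → 0 < δ → δ * kap ^ (2 * N) = 1 →
      δ ^ 2 ≤ X * R ^ X * δ ^ 2 * kap ^ (-(a / 4)) + X * R ^ X * kap ^ (5 : ℝ) *
        Real.exp (-(c₁ * R)) → False := by
  have hlim := tendsto_rpow_mul_exp_neg_mul_atTop_nhds_zero X (c₁ / 2) (by positivity)
  have hev : ∀ᶠ R : ℝ in atTop, X * (R ^ X * Real.exp (-(c₁ / 2) * R)) < 1 / 4 := by
    have h1 := hlim.const_mul X
    rw [mul_zero] at h1
    exact h1.eventually (gt_mem_nhds (by norm_num))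
  obtain ⟨R₁, hR₁⟩ := eventually_atTop.1 hev
  refine ⟨4 * (X + 1) / a, max R₁ (4 * X + 1), c₁ / (2 * (5 + 4 * N)), by positivity, ?_⟩
  intro R kap δ hR hR1 hk1 hk2 hδ hδk hcon
  have hR0 : 0 < R := by linarith
  have hRC : 1 ≤ R ^ (4 * (X + 1) / a) := Real.one_le_rpow hR1 (by positivity)
  have hk : 1 ≤ kap := hRC.trans hk1
  have hk0 : 0 < kap := by linarith
  -- first term
  have f1 : X * R ^ X * kap ^ (-(a / 4)) ≤ 1 / 4 := by
    have e1 : kap ^ (-(a / 4)) ≤ R ^ (-(X + 1)) := by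
      have e2 : (R ^ (4 * (X + 1) / a)) ^ (a / 4) ≤ kap ^ (a / 4) :=
        Real.rpow_le_rpow (by positivity) hk1 (by positivity)
      rw [← Real.rpow_mul hR0.le] at e2
      have e3 : 4 * (X + 1) / a * (a / 4) = X + 1 := by field_simp
      rw [e3] at e2
      rw [Real.rpow_neg hk0.le, Real.rpow_neg hR0.le]
      gcongr
    have e4 : R ^ X * R ^ (-(X + 1)) = R⁻¹ := by
      rw [← Real.rpow_add hR0]
      have : X + -(X + 1) = -1 := by ring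
      rw [this, Real.rpow_neg_one]
    have e5 : R⁻¹ ≤ (4 * X + 1)⁻¹ := by
      gcongr
      exact (le_max_right _ _).trans hR
    calc X * R ^ X * kap ^ (-(a / 4)) ≤ X * R ^ X * R ^ (-(X + 1)) := by gcongr
      _ = X * R⁻¹ := by rw [mul_assoc, e4]
      _ ≤ X * (4 * X + 1)⁻¹ := by gcongr
      _ ≤ 1 / 4 := by
          rw [← div_eq_mul_inv, div_le_div_iff₀ (by positivity) (by norm_num)]
          linarith
  -- second term
  have f2 : X * R ^ X * kap ^ (5 : ℝ) * Real.exp (-(c₁ * R)) ≤ 1 / 4 * δ ^ 2 := by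
    have e1 : δ = kap ^ (-(2 * N)) := by
      rw [Real.rpow_neg hk0.le]; exact eq_inv_of_mul_eq_one_left hδk
    have e2 : δ ^ 2 * kap ^ (4 * N) = 1 := by
      rw [e1, ← Real.rpow_natCast, ← Real.rpow_mul hk0.le, ← Real.rpow_add hk0]
      have : -(2 * N) * ((2 : ℕ) : ℝ) + 4 * N = 0 := by push_cast; ring
      rw [this, Real.rpow_zero]
    have e3 : kap ^ (5 : ℝ) * kap ^ (4 * N) ≤ Real.exp (c₁ / 2 * R) := by
      rw [← Real.rpow_add hk0]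
      calc kap ^ (5 + 4 * N) ≤ (Real.exp (c₁ / (2 * (5 + 4 * N)) * R)) ^ (5 + 4 * N) :=
            Real.rpow_le_rpow hk0.le hk2 (by positivity)
        _ = _ := by
            rw [← Real.exp_mul]
            congr 1
            field_simp
    have e4 : Real.exp (c₁ / 2 * R) * Real.exp (-(c₁ * R)) = Real.exp (-(c₁ / 2) * R) := by
      rw [← Real.exp_add]; congr 1; ring
    have e5 := hR₁ R ((le_max_left _ _).trans hR)
    have e6 : 0 ≤ R ^ X := by positivity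
    calc X * R ^ X * kap ^ (5 : ℝ) * Real.exp (-(c₁ * R))
        = X * R ^ X * kap ^ (5 : ℝ) * Real.exp (-(c₁ * R)) * (δ ^ 2 * kap ^ (4 * N)) := by
          rw [e2, mul_one]
      _ = X * R ^ X * (kap ^ (5 : ℝ) * kap ^ (4 * N)) * Real.exp (-(c₁ * R)) * δ ^ 2 := by ring
      _ ≤ X * R ^ X * Real.exp (c₁ / 2 * R) * Real.exp (-(c₁ * R)) * δ ^ 2 := by gcongr
      _ = X * (R ^ X * Real.exp (-(c₁ / 2) * R)) * δ ^ 2 := by rw [← e4]; ring
      _ ≤ 1 / 4 * δ ^ 2 := by gcongr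
  have hδ2 : 0 < δ ^ 2 := by positivity
  have f3 : X * R ^ X * δ ^ 2 * kap ^ (-(a / 4)) ≤ 1 / 4 * δ ^ 2 := by
    have := mul_le_mul_of_nonneg_right f1 hδ2.le
    linarith
  linarith

end Vale.Agent.P088.HY.T4
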