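import Vale.Agent.P088.R2.H404.P5d
import Vale.Agent.P088.R2.H404.P1b

/-!
# P088, stage 3, row P5: cut-off, splitting of the pairing, the far values, numbers
-/

open MeasureTheory Set Filter Topology
open scoped ContDiff Matrix

noncomputable section

namespace Vale.Agent.P088.HY.T4

open Vale.Agent.P088.LR Vale.Agent.P088.HY.T3 Vale.Agent.P088.HY.H16

variable {n : ℕ}

theorem SelD.monoC {s₁ s₂ : MF n} {σ N q : ℝ} {J : ℕ} {C C' s R kap Gs δ : ℝ} {ps : V n}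
    (hR : 1 ≤ R) (hC : 0 ≤ C) (hCC : C ≤ C')
    (h : SelD s₁ s₂ σ N q J C s R kap Gs δ ps) : SelD s₁ s₂ σ N q J C' s R kap Gs δ ps := by
  refine ⟨h.pm, h.gs, h.gs0, h.δ0, h.δ1, h.δe, h.k1, h.ke, fun i j l hl x hx => ?_⟩
  refine (h.jets i j l hl x hx).trans ?_
  have hk0 : 0 < kap := by linarith [h.k1]
  have hR0 : 0 < R := by linarith
  have hδ := h.δ0
  have e1 : R ^ C ≤ R ^ C' := Real.rpow_le_rpow_of_exponent_le hR hCC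
  have hC' : 0 ≤ C' := hC.trans hCC
  gcongr

/-! ### the cut-off -/

theorem exists_chi (n : ℕ) : ∃ χ : V n → ℝ, ContDiff ℝ ∞ χ ∧
    (∀ x ∉ Ac n (998 / 1000) 12, χ x = 0) ∧ (∀ x ∈ Ao n (999 / 1000) 11, χ x = 1) ∧
    (∀ x, |χ x| ≤ 1) ∧ ∃ B : ℝ, 0 ≤ B ∧ ∀ i x, |LR.pd i χ x| ≤ B := by
  obtain ⟨χ, hχ⟩ : ∃ χ : V n → ℝ, χ = fun x =>
      Real.smoothTransition ((sq x - (998 / 1000) ^ 2) / ((999 / 1000) ^ 2 - (998 / 1000) ^ 2)) *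
        Real.smoothTransition ((144 - sq x) / 23) := ⟨_, rfl⟩
  have hsq : ContDiff ℝ ∞ (fun x : V n => sq x) := by
    unfold sq
    fun_prop
  have hc : ContDiff ℝ ∞ χ := by
    rw [hχ]
    refine ContDiff.mul ?_ ?_
    · exact Real.smoothTransition.contDiff.comp ((hsq.sub contDiff_const).div_const _)
    · exact Real.smoothTransition.contDiff.comp ((contDiff_const.sub hsq).div_const _)
  have h0 : ∀ x ∉ Ac n (998 / 1000) 12, χ x = 0 := by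
    intro x hx
    have hsx : √(sq x) ^ 2 = sq x := Real.sq_sqrt (sq_nonneg' x)
    have hs0 : 0 ≤ √(sq x) := Real.sqrt_nonneg _
    rw [hχ]
    simp only
    by_cases h1 : 998 / 1000 ≤ √(sq x)
    · have h2 : 12 < √(sq x) := by
        by_contra hcon
        push Not at hcon
        exact hx ⟨h1, hcon⟩
      rw [Real.smoothTransition.zero_of_nonpos (x := (144 - sq x) / 23), mul_zero]
      apply div_nonpos_of_nonpos_of_nonneg _ (by norm_num)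
      nlinarith
    · push Not at h1
      rw [Real.smoothTransition.zero_of_nonpos, zero_mul]
      apply div_nonpos_of_nonpos_of_nonneg _ (by norm_num)
      nlinarith
  have h1 : ∀ x ∈ Ao n (999 / 1000) 11, χ x = 1 := by
    intro x hx
    have hsx : √(sq x) ^ 2 = sq x := Real.sq_sqrt (sq_nonneg' x)
    obtain ⟨a1, a2⟩ := hx
    rw [hχ]
    simp only
    rw [Real.smoothTransition.one_of_one_le, Real.smoothTransition.one_of_one_le, one_mul]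
    · rw [le_div_iff₀ (by norm_num)]
      nlinarith
    · rw [le_div_iff₀ (by norm_num)]
      nlinarith
  refine ⟨χ, hc, h0, h1, fun x => ?_, ?_⟩
  · rw [hχ]
    simp only
    rw [abs_of_nonneg (mul_nonneg (Real.smoothTransition.nonneg _)
      (Real.smoothTransition.nonneg _))]
    exact mul_le_one₀ (Real.smoothTransition.le_one _) (Real.smoothTransition.nonneg _)
      (Real.smoothTransition.le_one _)
  · have hop : IsOpen (Ac n (998 / 1000) 12)ᶜ := (isCompact_Ac _ _).isClosed.isOpen_compl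
    have hb : ∀ i, ∃ C : ℝ, 0 ≤ C ∧ ∀ x, |LR.pd i χ x| ≤ C := by
      intro i
      have hpc : Continuous (LR.pd i χ) :=
        ((hc.fderiv_right (m := ∞) le_rfl).clm_apply contDiff_const).continuous
      obtain ⟨C, hC⟩ := (isCompact_Ac (n := n) (998 / 1000) 12).exists_bound_of_continuousOn
        hpc.continuousOn
      refine ⟨|C|, abs_nonneg _, fun x => ?_⟩
      by_cases hx : x ∈ Ac n (998 / 1000) 12
      · exact (hC x hx).trans (le_abs_self C)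
      · rw [pd_zero_of hop (fun y hy => h0 y hy) hx i, abs_zero]
        exact abs_nonneg _
    choose C hC0 hC using hb
    refine ⟨∑ i, C i, Finset.sum_nonneg fun i _ => hC0 i, fun i x => (hC i x).trans ?_⟩
    exact Finset.single_le_sum (f := C) (fun j _ => hC0 j) (Finset.mem_univ i)

/-! ### the splitting of the pairing -/

theorem pair_int {s₁ s₂ : MF n} (h₁ : SmM s₁) (h₂ : SmM s₂) {χ : V n → ℝ} (hχ : Continuous χ)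
    (hχ0 : ∀ x ∉ Ac n (998 / 1000) 12, χ x = 0) {K : VV n → ℝ}
    (hK : ContDiffOn ℝ ∞ K (Oc n ×ˢ Oc n)) :
    Integrable fun x => χ x * ∑ i, ∑ j, (s₂ x i j - s₁ x i j) * dx i (dy j K) (x, x) := by
  have hsub : Ac n (998 / 1000) 12 ⊆ Oc n := Ac_sub_Oc (by norm_num) (by norm_num)
  have hc : ContinuousOn (fun x => χ x * ∑ i, ∑ j, (s₂ x i j - s₁ x i j) * dx i (dy j K) (x, x))
      (Ac n (998 / 1000) 12) := by
    refine hχ.continuousOn.mul (continuousOn_finsetSum _ fun i _ =>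
      continuousOn_finsetSum _ fun j _ => ContinuousOn.mul ?_ ?_)
    · exact ((h₂ i j).continuous.sub (h₁ i j).continuous).continuousOn
    · exact (mixed_cd isOpen_Oc hK i j).mono hsub
  have hi := hc.integrableOn_compact (μ := volume) (isCompact_Ac _ _)
  rw [← integrableOn_iff_integrable_of_support_subset (s := Ac n (998 / 1000) 12)]
  · exact hi
  · intro x hx
    by_contra hcon
    apply hx
    simp only
    rw [hχ0 x hcon, zero_mul]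

theorem pair_add {s₁ s₂ : MF n} (h₁ : SmM s₁) (h₂ : SmM s₂) {χ : V n → ℝ} (hχ : Continuous χ)
    (hχ0 : ∀ x ∉ Ac n (998 / 1000) 12, χ x = 0) {K0 K1 : VV n → ℝ}
    (hK0 : ContDiffOn ℝ ∞ K0 (Oc n ×ˢ Oc n)) (hK1 : ContDiffOn ℝ ∞ K1 (Oc n ×ˢ Oc n)) :
    ∫ x, χ x * ∑ i, ∑ j, (s₂ x i j - s₁ x i j) * dx i (dy j fun z => K0 z + K1 z) (x, x) =
      (∫ x, χ x * ∑ i, ∑ j, (s₂ x i j - s₁ x i j) * dx i (dy j K0) (x, x)) +
      ∫ x, χ x * ∑ i, ∑ j, (s₂ x i j - s₁ x i j) * dx i (dy j K1) (x, x) := by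
  have hsub : Ac n (998 / 1000) 12 ⊆ Oc n := Ac_sub_Oc (by norm_num) (by norm_num)
  rw [← integral_add (pair_int h₁ h₂ hχ hχ0 hK0) (pair_int h₁ h₂ hχ hχ0 hK1)]
  refine integral_congr_ae (Eventually.of_forall fun x => ?_)
  simp only
  by_cases hx : x ∈ Ac n (998 / 1000) 12
  · rw [← mul_add, ← Finset.sum_add_distrib]
    congr 1
    refine Finset.sum_congr rfl fun i _ => ?_
    rw [← Finset.sum_add_distrib]
    refine Finset.sum_congr rfl fun j _ => ?_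
    rw [mixed_add isOpen_OO hK0 hK1 i j (x, x) ⟨hsub hx, hsub hx⟩]
    ring
  · rw [hχ0 x hx]; ring

/-! ### the far values -/

theorem far_all {s₁ s₂ : MF n} {r Ci E0 c M2 R : ℝ} (hr : 0 < r) (hr1 : (n + 1) * r ≤ 1 / 1000)
    (hCi : 0 ≤ Ci)
    (h₁ : IntE s₁ (Oc n) r Ci) (h₂ : IntE s₂ (Oc n) r Ci) {K0 K1 W : VV n → ℝ}
    (hK0 : ContDiff ℝ ∞ K0) (hK1 : ContDiffOn ℝ ∞ K1 (Oc n ×ˢ Oc n))
    (hL1 : ∀ z ∈ Oc n ×ˢ Oc n, Lx s₁ K1 z = -Lx s₁ K0 z)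
    (hL2 : ∀ z ∈ Oc n ×ˢ Oc n, Ly s₂ K1 z = -Ly s₂ K0 z)
    (hint : IntegrableOn (fun z => Real.exp (-(2 * W z)) * K1 z ^ 2) (Oc n ×ˢ Oc n))
    (hM2 : ∫ z in Oc n ×ˢ Oc n, Real.exp (-(2 * W z)) * K1 z ^ 2 ≤ M2)
    (hW : ∀ x ∈ Ac n (99 / 100) 21, ∀ y ∈ Ac n (99 / 10) 21, W (x, y) ≤ -(c * R) ∧
      W (y, x) ≤ -(c * R))
    (hE : ∀ x ∈ Oc n, ∀ y ∈ Oc n, (x ∈ Ac n 9 24 ∨ y ∈ Ac n 9 24) → |K0 (x, y)| ≤ E0)
    {x y : V n} (hx : x ∈ Ac n (991 / 1000) 20) (hy : y ∈ Ac n 10 20) :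
    |K0 (x, y) + K1 (x, y)| ≤
      Ci ^ 2 * √(2 * (E0 ^ 2 + Real.exp (2 * -(c * R)) * M2)) ∧
    |K0 (y, x) + K1 (y, x)| ≤
      Ci ^ 2 * √(2 * (E0 ^ 2 + Real.exp (2 * -(c * R)) * M2)) := by
  have hn : (0 : ℝ) ≤ n := Nat.cast_nonneg n
  have hr2 : r ≤ 1 / 2 := by nlinarith
  have hbx : Metric.ball x r ⊆ Oc n := ball_Oc hr.le (by linarith) (by linarith) hx
  have hby : Metric.ball y r ⊆ Oc n := ball_Oc hr.le (by linarith) (by linarith) hy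
  have hbx' : ∀ z ∈ Metric.ball x r, z ∈ Ac n (99 / 100) 21 := by
    intro z hz
    obtain ⟨h1, h2⟩ := rt_ball hr.le hz
    exact ⟨by linarith [hx.1], by linarith [hx.2]⟩
  have hby' : ∀ z ∈ Metric.ball y r, z ∈ Ac n (99 / 10) 21 := by
    intro z hz
    obtain ⟨h1, h2⟩ := rt_ball hr.le hz
    exact ⟨by linarith [hy.1], by linarith [hy.2]⟩
  have hby'' : ∀ z ∈ Metric.ball y r, z ∈ Ac n 9 24 := by
    intro z hz
    have := hby' z hz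
    exact ⟨by linarith [this.1], by linarith [this.2]⟩
  constructor
  · refine far_core hr hr2 hCi h₁ h₂ hK0 hK1 hL1 hL2 hint hM2 hbx hby ?_ ?_
    · rintro ⟨z1, z2⟩ ⟨hz1, hz2⟩
      exact (hW z1 (hbx' z1 hz1) z2 (hby' z2 hz2)).1
    · rintro ⟨z1, z2⟩ ⟨hz1, hz2⟩
      exact hE z1 (hbx hz1) z2 (hby hz2) (Or.inr (hby'' z2 hz2))
  · refine far_core hr hr2 hCi h₁ h₂ hK0 hK1 hL1 hL2 hint hM2 hby hbx ?_ ?_
    · rintro ⟨z1, z2⟩ ⟨hz1, hz2⟩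
      exact (hW z2 (hbx' z2 hz2) z1 (hby' z1 hz1)).2
    · rintro ⟨z1, z2⟩ ⟨hz1, hz2⟩
      exact hE z1 (hby hz1) z2 (hbx hz2) (Or.inl (hby'' z1 hz1))

/-! ### numbers -/

theorem num_root {s a c ν C₄ R kap δ μ : ℝ} (hs : 0 ≤ s) (ha : 0 < a) (hC₄ : 0 ≤ C₄)
    (hR : 1 ≤ R) (hk : 1 ≤ kap) (hδ : 0 < δ) (hδ1 : δ < 1) (hμ0 : 0 < μ)
    (e1 : Real.exp (-(ν * R / 2)) ≤ μ) (e2 : Real.exp (-(c * R)) ≤ μ) :
    √(2 * ((C₄ * Real.exp (-(ν * R / 2))) ^ 2 + Real.exp (2 * -(c * R)) *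
        (C₄ * R ^ C₄ * kap ^ (4 * s) * δ ^ 2 * kap ^ (-(n + 4 + a) : ℝ)))) ≤
      (2 * C₄ + 2 * (1 + C₄)) * (R ^ C₄ * kap ^ (2 * s)) * μ := by
  have hn : (0 : ℝ) ≤ n := Nat.cast_nonneg n
  have hR0 : 0 < R := by linarith
  have hk0 : 0 < kap := by linarith
  have hRC : 1 ≤ R ^ C₄ := Real.one_le_rpow hR hC₄
  have hks : 1 ≤ kap ^ (2 * s) := Real.one_le_rpow hk (by linarith)
  obtain ⟨P, hP⟩ : ∃ P, P = R ^ C₄ := ⟨_, rfl⟩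
  obtain ⟨Q, hQ⟩ : ∃ Q, Q = kap ^ (2 * s) := ⟨_, rfl⟩
  have g1 : kap ^ (4 * s) = Q ^ 2 := by
    rw [hQ, ← Real.rpow_natCast (kap ^ (2 * s)), ← Real.rpow_mul hk0.le]
    congr 1; push_cast; ring
  rw [← hP] at hRC ⊢
  rw [← hQ] at hks ⊢
  rw [Real.sqrt_le_left (by positivity), g1]
  have f1 : (C₄ * Real.exp (-(ν * R / 2))) ^ 2 ≤ (C₄ * μ) ^ 2 := by gcongr
  have f2 : Real.exp (2 * -(c * R)) ≤ μ ^ 2 := by
    have : Real.exp (2 * -(c * R)) = Real.exp (-(c * R)) ^ 2 := by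
      rw [← Real.exp_nat_mul]; push_cast; ring_nf
    rw [this]; gcongr
  have f3 : C₄ * P * Q ^ 2 * δ ^ 2 * kap ^ (-(n + 4 + a) : ℝ) ≤ ((1 + C₄) * (P * Q)) ^ 2 := by
    have g2 : kap ^ (-(n + 4 + a) : ℝ) ≤ 1 :=
      Real.rpow_le_one_of_one_le_of_nonpos hk (by linarith)
    have g3 : δ ^ 2 ≤ 1 := pow_le_one₀ hδ.le hδ1.le
    have g4 : C₄ ≤ (1 + C₄) ^ 2 := by nlinarith
    have g5 : P ≤ P ^ 2 := by nlinarith
    calc C₄ * P * Q ^ 2 * δ ^ 2 * kap ^ (-(n + 4 + a) : ℝ)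
        ≤ (1 + C₄) ^ 2 * P ^ 2 * Q ^ 2 * 1 * 1 := by gcongr
      _ = _ := by ring
  have g : 1 ≤ P * Q := one_le_mul_of_one_le_of_one_le hRC hks
  calc 2 * ((C₄ * Real.exp (-(ν * R / 2))) ^ 2 + Real.exp (2 * -(c * R)) *
      (C₄ * P * Q ^ 2 * δ ^ 2 * kap ^ (-(n + 4 + a) : ℝ)))
      ≤ 2 * ((C₄ * μ) ^ 2 + μ ^ 2 * ((1 + C₄) * (P * Q)) ^ 2) := by
        gcongr
    _ ≤ 2 * ((C₄ * (P * Q) * μ) ^ 2 + ((1 + C₄) * (P * Q) * μ) ^ 2) := by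
        have g6 : (C₄ * μ) ^ 2 ≤ (C₄ * (P * Q) * μ) ^ 2 := by
          refine pow_le_pow_left₀ (by positivity) ?_ 2
          have := mul_le_mul_of_nonneg_left g (by positivity : 0 ≤ C₄ * μ)
          linarith
        have g7 : μ ^ 2 * ((1 + C₄) * (P * Q)) ^ 2 = ((1 + C₄) * (P * Q) * μ) ^ 2 := by ring
        rw [g7]
        linarith
    _ = 2 * (C₄ ^ 2 + (1 + C₄) ^ 2) * (P * Q * μ) ^ 2 := by ring
    _ ≤ (2 * C₄ + 2 * (1 + C₄)) ^ 2 * (P * Q * μ) ^ 2 := by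
        refine mul_le_mul_of_nonneg_right ?_ (sq_nonneg _)
        have : 0 ≤ 2 * C₄ ^ 2 + 2 * (1 + C₄) ^ 2 + 8 * C₄ * (1 + C₄) := by positivity
        linarith
    _ = _ := by ring

theorem num_sum {s a c ν C₃ C₄ B Ci Bχ Z : ℝ} (hs : 0 ≤ s) (ha : 0 < a)
    (hsa : (n + 8) * s ≤ a / 4) (ha4 : a ≤ 4) (hC₃ : 0 ≤ C₃) (hC₄ : 0 ≤ C₄)
    (hB : 0 ≤ B) (hBχ : 0 ≤ Bχ) (hZ : 0 ≤ Z) :
    ∃ X : ℝ, 0 ≤ X ∧ ∀ R kap δ I : ℝ, 1 ≤ R → 1 ≤ kap → 0 < δ → δ < 1 →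
      δ ^ 2 ≤ C₃ * R ^ C₃ * kap ^ ((n + 4) * s) * I →
      I ≤ B * (Ci ^ 2 * √(2 * ((C₄ * Real.exp (-(ν * R / 2))) ^ 2 + Real.exp (2 * -(c * R)) *
        (C₄ * R ^ C₄ * kap ^ (4 * s) * δ ^ 2 * kap ^ (-(n + 4 + a) : ℝ))))) +
        Z * R ^ Z * δ ^ 2 * kap ^ (4 * s - a / 2) + C₄ * (1 + Bχ) * Real.exp (-(ν * R / 2)) →
      δ ^ 2 ≤ X * R ^ X * δ ^ 2 * kap ^ (-(a / 4)) + X * R ^ X * kap ^ (5 : ℝ) *
        Real.exp (-(min c (ν / 2) * R)) := by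
  have hn : (0 : ℝ) ≤ n := Nat.cast_nonneg n
  obtain ⟨E, hE⟩ : ∃ E : ℝ, E = 2 * C₄ + 2 * (1 + C₄) := ⟨_, rfl⟩
  have hE0 : 0 ≤ E := by rw [hE]; positivity
  obtain ⟨Y₁, hY₁⟩ : ∃ Y₁ : ℝ, Y₁ = C₃ * Z := ⟨_, rfl⟩
  obtain ⟨Y₂, hY₂⟩ : ∃ Y₂ : ℝ, Y₂ = C₃ * (B * Ci ^ 2 * E + C₄ * (1 + Bχ)) := ⟨_, rfl⟩
  have hY1 : 0 ≤ Y₁ := by rw [hY₁]; positivity
  have hY2 : 0 ≤ Y₂ := by rw [hY₂]; positivity
  obtain ⟨X, hX⟩ : ∃ X : ℝ, X = Y₁ + Y₂ + C₃ + C₄ + Z := ⟨_, rfl⟩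
  have hX0 : 0 ≤ X := by rw [hX]; positivity
  refine ⟨X, hX0, fun R kap δ I hR hk hδ hδ1 h3 hI => ?_⟩
  have hR0 : 0 < R := by linarith
  have hk0 : 0 < kap := by linarith
  obtain ⟨μ, hμ⟩ : ∃ μ : ℝ, μ = Real.exp (-(min c (ν / 2) * R)) := ⟨_, rfl⟩
  have hμ0 : 0 < μ := hμ ▸ Real.exp_pos _
  have e1 : Real.exp (-(ν * R / 2)) ≤ μ := by
    rw [hμ]
    refine Real.exp_le_exp.2 (neg_le_neg ?_)
    have := mul_le_mul_of_nonneg_right (min_le_right c (ν / 2)) hR0.le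
    linarith
  have e2 : Real.exp (-(c * R)) ≤ μ := by
    rw [hμ]
    exact Real.exp_le_exp.2 (neg_le_neg (mul_le_mul_of_nonneg_right (min_le_left _ _) hR0.le))
  have hroot := num_root (n := n) hs ha hC₄ hR hk hδ hδ1 hμ0 e1 e2
  rw [← hE] at hroot
  rw [← hμ]
  have hI' : I ≤ B * (Ci ^ 2 * (E * (R ^ C₄ * kap ^ (2 * s)) * μ)) +
      Z * R ^ Z * δ ^ 2 * kap ^ (4 * s - a / 2) + C₄ * (1 + Bχ) * μ := by
    refine hI.trans ?_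
    have w1 : 0 ≤ C₄ * (1 + Bχ) := by positivity
    have w2 := mul_le_mul_of_nonneg_left e1 w1
    have w3 := mul_le_mul_of_nonneg_left (mul_le_mul_of_nonneg_left hroot (sq_nonneg Ci)) hB
    linarith
  have hkk : kap ^ ((n + 4) * s) * kap ^ (2 * s) ≤ kap ^ (5 : ℝ) := by
    rw [← Real.rpow_add hk0]
    exact Real.rpow_le_rpow_of_exponent_le hk (by nlinarith)
  have hkk' : kap ^ ((n + 4) * s) ≤ kap ^ (5 : ℝ) :=
    Real.rpow_le_rpow_of_exponent_le hk (by nlinarith)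
  have hka : kap ^ ((n + 4) * s) * kap ^ (4 * s - a / 2) ≤ kap ^ (-(a / 4)) := by
    rw [← Real.rpow_add hk0]
    exact Real.rpow_le_rpow_of_exponent_le hk (by linarith)
  have hpre : 0 ≤ C₃ * R ^ C₃ * kap ^ ((n + 4) * s) := by positivity
  have hRX1 : R ^ C₃ * R ^ Z ≤ R ^ X := by
    rw [← Real.rpow_add hR0]
    exact Real.rpow_le_rpow_of_exponent_le hR (by rw [hX]; linarith)
  have hRX2 : R ^ C₃ * R ^ C₄ ≤ R ^ X := by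
    rw [← Real.rpow_add hR0]
    exact Real.rpow_le_rpow_of_exponent_le hR (by rw [hX]; linarith)
  have hRX3 : R ^ C₃ ≤ R ^ X :=
    Real.rpow_le_rpow_of_exponent_le hR (by rw [hX]; linarith)
  have hY1X : Y₁ ≤ X := by rw [hX]; linarith
  have hY2X : Y₂ ≤ X := by rw [hX]; linarith
  obtain ⟨K1, hK1⟩ : ∃ K1 : ℝ, K1 = kap ^ ((n + 4) * s) := ⟨_, rfl⟩
  obtain ⟨K2, hK2⟩ : ∃ K2 : ℝ, K2 = kap ^ (2 * s) := ⟨_, rfl⟩
  obtain ⟨K3, hK3⟩ : ∃ K3 : ℝ, K3 = kap ^ (4 * s - a / 2) := ⟨_, rfl⟩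
  have hK1' : 0 < K1 := by rw [hK1]; positivity
  have hK2' : 0 < K2 := by rw [hK2]; positivity
  have hK3' : 0 < K3 := by rw [hK3]; positivity
  rw [← hK1] at h3 hkk hkk' hka hpre
  rw [← hK2] at hkk hI'
  rw [← hK3] at hka hI'
  refine h3.trans ((mul_le_mul_of_nonneg_left hI' hpre).trans ?_)
  have t1 : C₃ * (B * Ci ^ 2 * E) * (R ^ C₃ * R ^ C₄) * (K1 * K2) * μ ≤
      C₃ * (B * Ci ^ 2 * E) * R ^ X * kap ^ (5 : ℝ) * μ := by gcongr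
  have t2 : C₃ * (C₄ * (1 + Bχ)) * R ^ C₃ * K1 * μ ≤
      C₃ * (C₄ * (1 + Bχ)) * R ^ X * kap ^ (5 : ℝ) * μ := by gcongr
  have t3 : C₃ * Z * (R ^ C₃ * R ^ Z) * δ ^ 2 * (K1 * K3) ≤
      C₃ * Z * R ^ X * δ ^ 2 * kap ^ (-(a / 4)) := by gcongr
  have k1 : 0 ≤ R ^ X * δ ^ 2 * kap ^ (-(a / 4)) := by positivity
  have k2 : 0 ≤ R ^ X * kap ^ (5 : ℝ) * μ := by positivity
  have t4 := mul_le_mul_of_nonneg_right hY1X k1
  have t5 := mul_le_mul_of_nonneg_right hY2X k2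
  rw [hY₁] at t4
  rw [hY₂] at t5
  calc C₃ * R ^ C₃ * K1 * (B * (Ci ^ 2 * (E * (R ^ C₄ * K2) * μ)) +
        Z * R ^ Z * δ ^ 2 * K3 + C₄ * (1 + Bχ) * μ)
      = C₃ * Z * (R ^ C₃ * R ^ Z) * δ ^ 2 * (K1 * K3) +
        (C₃ * (B * Ci ^ 2 * E) * (R ^ C₃ * R ^ C₄) * (K1 * K2) * μ +
        C₃ * (C₄ * (1 + Bχ)) * R ^ C₃ * K1 * μ) := by ring
    _ ≤ C₃ * Z * R ^ X * δ ^ 2 * kap ^ (-(a / 4)) +
        (C₃ * (B * Ci ^ 2 * E) * R ^ X * kap ^ (5 : ℝ) * μ +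
        C₃ * (C₄ * (1 + Bχ)) * R ^ X * kap ^ (5 : ℝ) * μ) :=
        add_le_add t3 (add_le_add t1 t2)
    _ = C₃ * Z * (R ^ X * δ ^ 2 * kap ^ (-(a / 4))) +
        C₃ * (B * Ci ^ 2 * E + C₄ * (1 + Bχ)) * (R ^ X * kap ^ (5 : ℝ) * μ) := by ring
    _ ≤ X * (R ^ X * δ ^ 2 * kap ^ (-(a / 4))) + X * (R ^ X * kap ^ (5 : ℝ) * μ) :=
        add_le_add t4 t5
    _ = _ := by ring

end Vale.Agent.P088.HY.T4
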