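import Vale.Agent.P088.R2.H404.P5e

/-!
# P088, stage 3, row P5: the assembly
-/

open MeasureTheory Set Filter Topology
open scoped ContDiff Matrix

noncomputable section

namespace Vale.Agent.P088.HY.T4

open Vale.Agent.P088.LR Vale.Agent.P088.HY.T3 Vale.Agent.P088.HY.H16

variable {n : ℕ}

/-- the upper bound of the main term -/
theorem main_ineq {s₁ s₂ : MF n} {G : Set (V n)} {K : ℕ} {ε : ℝ} (hN : Nrm K ε s₁ s₂ G)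
    {σ a b c C₁ C₄ s ν D R kap Gs δ r Ci B Bχ T₁ : ℝ} {K₈ : ℕ} {K0 W w : VV n → ℝ} {χ : V n → ℝ}
    (hQ : QK s₁ s₂ σ a b c C₁ C₄ s ν D R kap Gs δ K₈ K0)
    (hWB : WB s₁ s₂ σ a b c C₁ ν R kap Gs W w)
    (hr : 0 < r) (hr1 : (n + 1) * r ≤ 1 / 1000) (hCi : 0 ≤ Ci)
    (hi₁ : IntE s₁ (Oc n) r Ci) (hi₂ : IntE s₂ (Oc n) r Ci)
    (hχs : ContDiff ℝ ∞ χ) (hχ0 : ∀ x ∉ Ac n (998 / 1000) 12, χ x = 0)
    (hχ1 : ∀ x ∈ Ao n (999 / 1000) 11, χ x = 1) (hχ : ∀ x, |χ x| ≤ 1)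
    (hBχ : ∀ i x, |LR.pd i χ x| ≤ Bχ)
    (hfar : ∀ (k : VV n → ℝ) (S : ℝ), 0 ≤ S →
      ContDiffOn ℝ ∞ k (Oc n ×ˢ Oc n) → (∀ z ∈ Oc n ×ˢ Oc n, Lx s₁ k z = 0) →
      (∀ z ∈ Oc n ×ˢ Oc n, Ly s₂ k z = 0) →
      (∀ x ∈ Ac n (991 / 1000) 20, ∀ y ∈ Ac n 10 20, |k (x, y)| ≤ S ∧ |k (y, x)| ≤ S) →
      |∫ x, χ x * ∑ i, ∑ j, (s₂ x i j - s₁ x i j) * dx i (dy j k) (x, x)| ≤ B * S)
    (hpair : ∀ K1 : VV n → ℝ, ContDiffOn ℝ ∞ K1 (Oc n ×ˢ Oc n) →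
      (∀ z ∈ Oc n ×ˢ Oc n, Lx s₁ K1 z = -Lx s₁ K0 z) →
      (∀ z ∈ Oc n ×ˢ Oc n, Ly s₂ K1 z = -Ly s₂ K0 z) →
      IntegrableOn (fun z => Real.exp (-(2 * W z)) * K1 z ^ 2) (Oc n ×ˢ Oc n) →
      ∫ z in Oc n ×ˢ Oc n, Real.exp (-(2 * W z)) * K1 z ^ 2 ≤
        C₄ * R ^ C₄ * kap ^ (4 * s) * δ ^ 2 * kap ^ (-(n + 4 + a) : ℝ) →
      |∫ x, χ x * ∑ i, ∑ j, (s₂ x i j - s₁ x i j) * dx i (dy j K1) (x, x)| ≤ T₁) :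
    It s₁ s₂ σ (ν + D) R kap Gs ≤ B * (Ci ^ 2 * √(2 * ((C₄ * Real.exp (-(ν * R / 2))) ^ 2 +
      Real.exp (2 * -(c * R)) *
        (C₄ * R ^ C₄ * kap ^ (4 * s) * δ ^ 2 * kap ^ (-(n + 4 + a) : ℝ))))) + T₁ +
      C₄ * (1 + Bχ) * Real.exp (-(ν * R / 2)) := by
  obtain ⟨K1, hK1, hL1, hL2, hint, hle⟩ := hWB.sol K0 hQ.sm hQ.cs hQ.su
  have hM2 := hle.trans (hQ.er W w hWB)
  have hK0 : ContDiffOn ℝ ∞ K0 (Oc n ×ˢ Oc n) := hQ.sm.contDiffOn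
  have hT1 := hpair K1 hK1 hL1 hL2 hint hM2
  have hT0 := hQ.pr χ hχs hχ0 hχ1 hχ Bχ hBχ
  have hK : ContDiffOn ℝ ∞ (fun z => K0 z + K1 z) (Oc n ×ˢ Oc n) := hK0.add hK1
  have hT := hfar (fun z => K0 z + K1 z) _
    (by positivity : 0 ≤ Ci ^ 2 * √(2 * ((C₄ * Real.exp (-(ν * R / 2))) ^ 2 +
      Real.exp (2 * -(c * R)) *
        (C₄ * R ^ C₄ * kap ^ (4 * s) * δ ^ 2 * kap ^ (-(n + 4 + a) : ℝ))))) hK
    (fun z hz => by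
      rw [Lx_add' isOpen_OO s₁ hK0 hK1 z hz, hL1 z hz]; ring)
    (fun z hz => by
      rw [Ly_add' isOpen_OO s₂ hK0 hK1 z hz, hL2 z hz]; ring)
    (fun x hx y hy => far_all hr hr1 hCi hi₁ hi₂ hQ.sm hK1 hL1 hL2 hint hM2 hWB.W3 hQ.fa hx hy)
  have hadd := pair_add hN.sm₁ hN.sm₂ hχs.continuous hχ0 hK0 hK1
  rw [hadd] at hT
  have a1 := abs_le.1 hT
  have a2 := abs_le.1 hT1
  have a3 := abs_le.1 hT0
  linarith [a1.1, a1.2, a2.1, a2.2, a3.1, a3.2]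

/-- **Row P5.** -/
theorem core3n (hI : RowINV) (hINP : RowINP) (hS : RowSOLW) (p3 : RowP3) (p4 : RowP4) :
    RowCORE3n := by
  intro n hn
  have hn0 : (0 : ℝ) ≤ n := Nat.cast_nonneg n
  obtain ⟨σ, a₀, b, ν₀, hσ, hσ1, ha₀, hb, hS⟩ := hS n hn
  obtain ⟨a, ha⟩ : ∃ a, a = min a₀ 4 := ⟨_, rfl⟩
  have ha0 : 0 < a := by rw [ha]; exact lt_min ha₀ (by norm_num)
  have ha4 : a ≤ 4 := by rw [ha]; exact min_le_right _ _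
  have haa : a ≤ a₀ := by rw [ha]; exact min_le_left _ _
  obtain ⟨D, hD⟩ : ∃ D, D = 2 * b + n + 4 + a + 10 := ⟨_, rfl⟩
  have hD0 : 0 ≤ D := by rw [hD]; positivity
  obtain ⟨q₄, hq₄, ν₁, p4⟩ := p4 n hn σ a b hσ hσ1 ha0 ha4 hb D hD.ge
  obtain ⟨q₃, p3⟩ := p3 n hn σ hσ hσ1
  obtain ⟨q, hq⟩ : ∃ q, q = max (max q₄ q₃) (4 * D + n + 12) := ⟨_, rfl⟩
  have hqq₄ : q₄ ≤ q := by rw [hq]; exact (le_max_left _ _).trans (le_max_left _ _)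
  have hqq₃ : q₃ ≤ q := by rw [hq]; exact (le_max_right _ _).trans (le_max_left _ _)
  have hqD : 4 * D + n + 12 ≤ q := by rw [hq]; exact le_max_right _ _
  have hq0 : 0 ≤ q := by linarith
  obtain ⟨N₃, p3⟩ := p3 q hqq₃
  obtain ⟨s, hs⟩ : ∃ s : ℝ, s = a / (100 * (n + 10)) := ⟨_, rfl⟩
  have hs0 : 0 < s := by rw [hs]; positivity
  have hs1 : s ≤ 1 := by
    rw [hs, div_le_one (by positivity)]; linarith
  have hsa : (n + 8) * s ≤ a / 4 := by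
    rw [hs, mul_div_assoc', div_le_div_iff₀ (by positivity) (by norm_num)]
    nlinarith
  obtain ⟨N₁, p1⟩ := rowP1 n hn σ hσ hσ1 q s hq0 hs0
  obtain ⟨ν, hν⟩ : ∃ ν, ν = max (max (max ν₀ ν₁) (max N₁ N₃)) (2 * q + 100) := ⟨_, rfl⟩
  have hν₀ : ν₀ ≤ ν := by
    rw [hν]; exact (le_max_left _ _).trans ((le_max_left _ _).trans (le_max_left _ _))
  have hν₁ : ν₁ ≤ ν := by
    rw [hν]; exact (le_max_right _ _).trans ((le_max_left _ _).trans (le_max_left _ _))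
  have hN₁ : N₁ ≤ ν := by
    rw [hν]; exact (le_max_left _ _).trans ((le_max_right _ _).trans (le_max_left _ _))
  have hN₃ : N₃ ≤ ν := by
    rw [hν]; exact (le_max_right _ _).trans ((le_max_right _ _).trans (le_max_left _ _))
  have hνq : 2 * q + 100 ≤ ν := by rw [hν]; exact le_max_right _ _
  have hνpos : 0 < ν := by linarith
  obtain ⟨K₀, ε₀, c, C₀', η₀, R₀', hε₀, hc, hC₀', hη₀, hS⟩ := hS ν hν₀
  obtain ⟨C₁, hC₁⟩ : ∃ C₁, C₁ = max C₀' 3 := ⟨_, rfl⟩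
  have hC₁3 : 3 ≤ C₁ := by rw [hC₁]; exact le_max_right _ _
  have hC₁C : C₀' ≤ C₁ := by rw [hC₁]; exact le_max_left _ _
  obtain ⟨K₈, C8, ε₈, hC8, hε₈, hpb⟩ := pair_bd hINP n
  obtain ⟨J, K₄, ε₄, hε₄, p4⟩ := p4 ν hν₁ K₈
  obtain ⟨K₃, ε₃, hε₃, p3⟩ := p3 (ν + D) (by linarith)
  obtain ⟨K₁₁, ε₁₁, hε₁₁, hs11⟩ := T3.s11 hI n
  obtain ⟨Ki, Ci', εi, hCi', hεi, hie⟩ := intE_of hI n
  obtain ⟨K, hK⟩ : ∃ K, K = max (max K₀ K₈) (max (max K₄ K₃) (max K₁₁ Ki)) := ⟨_, rfl⟩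
  obtain ⟨ε, hε⟩ : ∃ ε, ε = min (min ε₀ ε₈) (min (min ε₄ ε₃) (min ε₁₁ εi)) := ⟨_, rfl⟩
  have hε0 : 0 < ε := by
    rw [hε]; exact lt_min (lt_min hε₀ hε₈) (lt_min (lt_min hε₄ hε₃) (lt_min hε₁₁ hεi))
  refine ⟨K, ε, hε0, fun s₁ s₂ G hN hStp => ?_⟩
  have hK1 : K₀ ≤ K := by rw [hK]; omega
  have hK2 : K₈ ≤ K := by rw [hK]; omega
  have hK3 : K₄ ≤ K := by rw [hK]; omega
  have hK4 : K₃ ≤ K := by rw [hK]; omega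
  have hK5 : K₁₁ ≤ K := by rw [hK]; omega
  have hK6 : Ki ≤ K := by rw [hK]; omega
  have hε1 : ε ≤ ε₀ := by rw [hε]; simp
  have hε2 : ε ≤ ε₈ := by rw [hε]; simp
  have hε3 : ε ≤ ε₄ := by rw [hε]; simp
  have hε4 : ε ≤ ε₃ := by rw [hε]; simp
  have hε5 : ε ≤ ε₁₁ := by rw [hε]; simp
  have hε6 : ε ≤ εi := by rw [hε]; simp
  have hNS := Nrm.mono' hK1 hε1 hN
  have hN8 := Nrm.mono' hK2 hε2 hN
  have hN4 := Nrm.mono' hK3 hε3 hN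
  have hN3 := Nrm.mono' hK4 hε4 hN
  have hN11 := Nrm.mono' hK5 hε5 hN
  have hNi := Nrm.mono' hK6 hε6 hN
  by_contra hcon
  push Not at hcon
  -- the selection
  obtain ⟨J', hJ'⟩ : ∃ J', J' = max J (max K₀ 1) := ⟨_, rfl⟩
  have hJJ : J ≤ J' := by rw [hJ']; omega
  have hJK : K₀ ≤ J' := by rw [hJ']; omega
  have hJ1 : 1 ≤ J' := by rw [hJ']; omega
  obtain ⟨Cs₀, hCs₀, hsel⟩ := p1 (ν + D) (by linarith) J' s₁ s₂ G K ε hN hcon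
  obtain ⟨Cs, hCs⟩ : ∃ Cs, Cs = max Cs₀ 1 := ⟨_, rfl⟩
  have hCs1 : 1 ≤ Cs := by rw [hCs]; exact le_max_right _ _
  have hCss : Cs₀ ≤ Cs := by rw [hCs]; exact le_max_left _ _
  obtain ⟨C₄, C₀₄, R₀₄, η₄, hC₄, hη₄, p4⟩ := p4 s hs0 hs1 c C₁ Cs hc hC₁3 (by linarith)
  obtain ⟨C₃, C₀₃, R₀₃, η₃, hC₃, hη₃, p3⟩ := p3 s hs0 hs1 Cs (by linarith)
  obtain ⟨χ, hχs, hχ0, hχ1, hχ, Bχ, hBχ0, hBχ⟩ := exists_chi n
  have hsubO : Oc n ⊆ Eb 0 24 := fun x hx => (mem_Eb0 (by norm_num)).2 hx.2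
  obtain ⟨B, hB0, hfar⟩ := hs11 s₁ s₂ G hN11 hStp (Oc n) χ isOpen_Oc hsubO
    (Ac_sub_Oc (by norm_num) (by norm_num)) hχs hχ0 hχ1
  obtain ⟨Λ, hΛ, hlip⟩ := gx_lip (n := n) σ
  -- the interior estimate
  obtain ⟨t, ht⟩ : ∃ t : ℝ, t = 1 / (4000 * (n + 1)) := ⟨_, rfl⟩
  have ht0 : 0 < t := by rw [ht]; positivity
  have ht1 : t ≤ 1 := by
    rw [ht, div_le_one (by positivity)]; linarith
  have hnt : (n + 1) * (2 * t) ≤ 1 / 1000 := by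
    rw [ht]
    have : ((n : ℝ) + 1) * (2 * (1 / (4000 * (n + 1)))) = 1 / 2000 := by field_simp; norm_num
    rw [this]; norm_num
  obtain ⟨Ci, hCi⟩ : ∃ Ci, Ci = Ci' * √((t ^ n)⁻¹) * t⁻¹ := ⟨_, rfl⟩
  have hCi0 : 0 ≤ Ci := by rw [hCi]; positivity
  have hi₁ : IntE s₁ (Oc n) (2 * t) Ci := by
    rw [hCi]; exact hie s₁ hN.sm₁ hNi.cl₁ t ht0 ht1 _
  have hi₂ : IntE s₂ (Oc n) (2 * t) Ci := by
    rw [hCi]; exact hie s₂ hN.sm₂ hNi.cl₂ t ht0 ht1 _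
  obtain ⟨Z, hZ0, hZ⟩ := num_T1 (n := n) (s := s) (a := a) (Cs := Cs) (C := C₁) (C4 := C₄)
    (C8 := C8) (v := volume.real (Ac n 1 12)) (R := 1) (kap := 1) (δ := 1) hs0.le ha4 (by linarith)
    (by linarith) hC₄ hC8.le measureReal_nonneg
  obtain ⟨X, hX0, hX⟩ := num_sum (n := n) (s := s) (a := a) (c := c) (ν := ν) (C₃ := C₃) (C₄ := C₄)
    (B := B) (Ci := Ci) (Bχ := Bχ) (Z := Z) hs0.le ha0 hsa ha4 hC₃ hC₄ hB0 hBχ0 hZ0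
  obtain ⟨m, hm⟩ : ∃ m, m = ν + D - q / 2 := ⟨_, rfl⟩
  have hm0 : 0 < m := by rw [hm]; linarith
  have hmν : m ≤ ν := by rw [hm]; linarith
  obtain ⟨C₀f, R₀f, ηf, hηf, hf⟩ := final_num (X := X) (a := a) (c₁ := min c (ν / 2)) (N := m / 2)
    hX0 ha0 (lt_min hc (by linarith)) (by linarith)
  obtain ⟨C₀, hC₀⟩ : ∃ C₀, C₀ = max (max C₀' (Cs + 1)) (max C₀₄ (max C₀₃ C₀f)) := ⟨_, rfl⟩
  obtain ⟨R₀, hR₀⟩ : ∃ R₀, R₀ = max (max R₀' (max Cs (40 * (n + 1) + 8 * Λ)))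
    (max R₀₄ (max R₀₃ R₀f)) := ⟨_, rfl⟩
  obtain ⟨η, hη⟩ : ∃ η, η = min (min η₀ ηf) (min η₄ η₃) := ⟨_, rfl⟩
  have hη0 : 0 < η := by rw [hη]; exact lt_min (lt_min hη₀ hηf) (lt_min hη₄ hη₃)
  obtain ⟨R, kap, Gs, δ, ps, hRR, hR1, hk1, hk2, hGs, hke, hSel⟩ := hsel C₀ R₀ η hη0
  have hk1' := hSel.k1
  have hδ0 := hSel.δ0
  have hRe : ∀ C', C' ≤ C₀ → R ^ C' ≤ kap := fun C' h =>
    (Real.rpow_le_rpow_of_exponent_le hR1 h).trans hk1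
  have hRR' : ∀ r, r ≤ R₀ → r ≤ R := fun r h => h.trans hRR
  have hke' : ∀ η', η ≤ η' → kap ≤ Real.exp (η' * R) := fun η' h =>
    hk2.trans (Real.exp_le_exp.2 (mul_le_mul_of_nonneg_right h (by linarith)))
  have hGe : ∀ η', η ≤ η' → -η' ≤ Gs := fun η' h => by linarith
  have c1 : C₀' ≤ C₀ := by rw [hC₀]; simp
  have c2 : Cs + 1 ≤ C₀ := by rw [hC₀]; simp
  have c3 : C₀₄ ≤ C₀ := by rw [hC₀]; simp
  have c4 : C₀₃ ≤ C₀ := by rw [hC₀]; simp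
  have c5 : C₀f ≤ C₀ := by rw [hC₀]; simp
  have r1 : R₀' ≤ R := hRR' _ (by rw [hR₀]; simp)
  have r2 : Cs ≤ R := hRR' _ (by rw [hR₀]; simp)
  have r3 : 40 * (n + 1) + 8 * Λ ≤ R := hRR' _ (by
    rw [hR₀]; exact (le_max_right _ _).trans ((le_max_right _ _).trans (le_max_left _ _)))
  have r4 : R₀₄ ≤ R := hRR' _ (by rw [hR₀]; simp)
  have r5 : R₀₃ ≤ R := hRR' _ (by rw [hR₀]; simp)
  have r6 : R₀f ≤ R := hRR' _ (by rw [hR₀]; simp)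
  have e1 : η ≤ η₀ := by rw [hη]; simp
  have e2 : η ≤ ηf := by rw [hη]; simp
  have e3 : η ≤ η₄ := by rw [hη]; simp
  have e4 : η ≤ η₃ := by rw [hη]; simp
  have hSelC := SelD.monoC hR1 hCs₀ hCss hSel
  have hR0 : 0 < R := by linarith
  have hCsR : Cs * R ^ Cs ≤ kap := by
    calc Cs * R ^ Cs ≤ R * R ^ Cs := by gcongr
      _ = R ^ (Cs + 1) := by rw [Real.rpow_add hR0, Real.rpow_one]; ring
      _ ≤ kap := hRe _ c2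
  -- the weight
  obtain ⟨W, w, hWB₀⟩ := hS s₁ s₂ G hNS R kap Gs r1 hR1 (hGe _ e1) hSel.gs0 hk1' (hRe _ c1)
    (hke' _ e1) (fun i j l hl x hx hkk => SelD.small hR1 (by linarith) hs0.le (by linarith) hD0
      (by linarith) hCsR hke hSelC i j l (hl.trans hJK) x hx hkk)
  have hWB := WB.mono hR1 hk1' hc haa hC₁C hWB₀
  -- the quasimode
  obtain ⟨K0, hQ⟩ := p4 s₁ s₂ G hN4 R kap Gs δ ps r4 hR1 (hRe _ c3) (hke' _ e3) (hGe _ e3)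
    (SelD.mono (by linarith) (by linarith) hqq₄ hJJ hSelC)
  -- the lower bound of the main term
  have h3 := p3 s₁ s₂ G hN3 R kap Gs δ ps r5 hR1 (hRe _ c4) (hke' _ e4) (hGe _ e4)
    (SelD.mono (by linarith) (by linarith) le_rfl hJ1 hSelC)
  -- the upper bound
  have hSel0 := SelD.mono (q' := D + n + 4) (J' := 0) (by linarith) (by linarith) (by linarith)
    (Nat.zero_le _) hSelC
  have hkem : δ * kap ^ m = 1 := by rw [hm]; exact hke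
  have hk0 : 0 < kap := by linarith
  have hmain := main_ineq hN hQ hWB (r := 2 * t) (by positivity) hnt hCi0 hi₁ hi₂ hχs hχ0 hχ1 hχ
    hBχ hfar (T₁ := Z * R ^ Z * δ ^ 2 * kap ^ (4 * s - a / 2))
    (fun K1 hK1 hL1 hL2 hint hM2 => (hpb s₁ s₂ G hN8 σ Λ ν D (D + n + 4) m s C₁ Cs
      (C₄ * R ^ C₄ * kap ^ (2 * s - 2) * δ) a b c R kap Gs δ
      (C₄ * R ^ C₄ * kap ^ (4 * s) * δ ^ 2 * kap ^ (-(n + 4 + a) : ℝ)) ps W w K0 K1 hlip hΛ hD0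
      le_rfl hC₁3 hCs1 (by positivity) hR1 r3 hs0.le hνpos.le hmν hkem hWB hSel0 hQ.sm hQ.jt
      hK1 hL1 hL2 hint hM2 χ hχ0 hχ (kap ^ (-(n + 4) - a / 2 : ℝ)) (by positivity)).trans
      (hZ R kap δ hR1 hk1' hδ0))
  have hfin := hX R kap δ _ hR1 hk1' hδ0 hSel.δ1 h3 hmain
  exact hf R kap δ r6 hR1 (hRe _ c5) (hke' _ e2) hδ0
    (by rw [show 2 * (m / 2) = m by ring]; exact hkem) hfin

end Vale.Agent.P088.HY.T4
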